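import Vale.Agent.P363.H574.Space
import Vale.Agent.P363.R.Sob.Chain

/-! `H¹(ℝ³)` contains functions orthogonal to any two given ones; sign and simplicity of
minimisers in the Hilbert space language. -/

namespace Vale.Agent.P363.H574

open MeasureTheory Filter Topology
open Vale.Agent.P363.Stmt
open Vale.Agent.P363.R.Sob
open Vale.Agent.P363.R.KS (H1 qf KSData)
open scoped ContDiff ENNReal

noncomputable section

theorem H1_test {χ : R3 → ℝ} (h : Test χ) : H1 χ (fun k x => fderiv ℝ χ x (R.KS.dir k)) :=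
  ⟨test_memLp_real h, fun k => test_memLp_real (h.fderiv (R.KS.dir k)), fun _ =>
    isWD_of_contDiff (h.1.of_le (by simp))⟩

theorem norm_toLp_sq' {u : R3 → ℝ} (hu : MemLp u 2 (volume : Measure R3)) :
    ‖hu.toLp u‖ ^ 2 = ∫ x, u x ^ 2 := by
  rw [← real_inner_self_eq_norm_sq, inner_toLp]
  refine integral_congr_ae (ae_of_all _ fun x => ?_)
  simp only; ring

/-- three bumps with disjoint supports -/
def bump0 : ContDiffBump (0 : R3) := ⟨1, 2, one_pos, one_lt_two⟩

/-- centres -/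
def ctr (i : Fin 3) : R3 := EuclideanSpace.single 0 (10 * (i : ℝ))

/-- translated bump -/
def bumpf (i : Fin 3) (x : R3) : ℝ := bump0 (x - ctr i)

theorem bumpf_test (i : Fin 3) : Test (bumpf i) := by
  refine ⟨bump0.contDiff.comp (contDiff_id.sub contDiff_const), ?_⟩
  exact bump0.hasCompactSupport.comp_homeomorph (Homeomorph.subRight (ctr i))

theorem ctr_dist {i j : Fin 3} (h : i ≠ j) : 10 ≤ ‖ctr i - ctr j‖ := by
  have e : ctr i - ctr j = EuclideanSpace.single 0 (10 * (i : ℝ) - 10 * (j : ℝ)) := by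
    ext k
    by_cases hk : k = 0
    · subst hk; simp [ctr]
    · simp [ctr, hk]
  rw [e, EuclideanSpace.norm_single, Real.norm_eq_abs]
  have h1 : (1 : ℝ) ≤ |(i : ℝ) - (j : ℝ)| := by
    have h2 : ((i : ℕ) : ℤ) - ((j : ℕ) : ℤ) ≠ 0 := by
      intro h3
      apply h
      have : (i : ℕ) = (j : ℕ) := by omega
      exact Fin.ext this
    have h3 := Int.one_le_abs h2
    exact_mod_cast h3
  have h2 : |10 * (i : ℝ) - 10 * (j : ℝ)| = 10 * |(i : ℝ) - (j : ℝ)| := by
    rw [← mul_sub, abs_mul, abs_of_pos (by norm_num : (0 : ℝ) < 10)]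
  rw [h2]
  linarith

theorem bump_mul {i j : Fin 3} (h : i ≠ j) (x : R3) : bumpf i x * bumpf j x = 0 := by
  by_contra hne
  have h1 : bumpf i x ≠ 0 := left_ne_zero_of_mul hne
  have h2 : bumpf j x ≠ 0 := right_ne_zero_of_mul hne
  have h3 : ‖x - ctr i‖ < 2 := by
    have : x - ctr i ∈ Function.support (bump0 : R3 → ℝ) := h1
    rw [bump0.support_eq] at this
    simpa [bump0] using this
  have h4 : ‖x - ctr j‖ < 2 := by
    have : x - ctr j ∈ Function.support (bump0 : R3 → ℝ) := h2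
    rw [bump0.support_eq] at this
    simpa [bump0] using this
  have h5 := ctr_dist h
  have h6 : ‖ctr i - ctr j‖ ≤ ‖x - ctr j‖ + ‖x - ctr i‖ := by
    have : ctr i - ctr j = (x - ctr j) - (x - ctr i) := by abel
    rw [this]
    exact norm_sub_le _ _
  linarith

/-- bumps as elements of `V1` -/
def bV (i : Fin 3) : V1 := toV (H1_test (bumpf_test i))

theorem bV_orth {i j : Fin 3} (h : i ≠ j) : (inner ℝ (J1 (bV i)) (J1 (bV j)) : ℝ) = 0 := by
  unfold bV
  rw [J1_toV, J1_toV, inner_toLp]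
  simp [bump_mul h]

theorem bV_ne (i : Fin 3) : J1 (bV i) ≠ 0 := by
  intro h0
  have h1 : ‖J1 (bV i)‖ ^ 2 = 0 := by rw [h0]; simp
  unfold bV at h1
  rw [J1_toV, norm_toLp_sq'] at h1
  have hc : Continuous fun x => bumpf i x ^ 2 := (bumpf_test i).continuous.pow 2
  have hi : Integrable (fun x => bumpf i x ^ 2) (volume : Measure R3) :=
    (memLp_two_iff_integrable_sq (test_memLp_real (bumpf_test i)).1).1
      (test_memLp_real (bumpf_test i))
  have h2 : (fun x => bumpf i x ^ 2) =ᵐ[(volume : Measure R3)] 0 :=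
    (integral_eq_zero_iff_of_nonneg (fun x => sq_nonneg _) hi).1 h1
  have h3 : (fun x => bumpf i x ^ 2) = 0 :=
    (hc.ae_eq_iff_eq volume continuous_zero).1 h2
  have h4 := congrFun h3 (ctr i)
  have h5 : bumpf i (ctr i) = 1 := by
    unfold bumpf
    rw [sub_self]
    exact bump0.one_of_mem_closedBall (by simp [bump0])
  rw [h5] at h4
  norm_num at h4

theorem exists_orth (u1 u2 : LR) : ∃ f : V1, ‖J1 f‖ = 1 ∧ inner ℝ u1 (J1 f) = (0 : ℝ) ∧
    inner ℝ u2 (J1 f) = (0 : ℝ) := by
  let L : (Fin 3 → ℝ) →ₗ[ℝ] (Fin 2 → ℝ) :=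
    { toFun := fun c => ![∑ i, c i * inner ℝ u1 (J1 (bV i)), ∑ i, c i * inner ℝ u2 (J1 (bV i))]
      map_add' := by
        intro a b
        ext k
        fin_cases k <;> simp [add_mul, Finset.sum_add_distrib]
      map_smul' := by
        intro r a
        ext k
        fin_cases k <;> simp [Finset.mul_sum, mul_assoc] }
  have hker : LinearMap.ker L ≠ ⊥ := LinearMap.ker_ne_bot_of_finrank_lt (by simp)
  obtain ⟨c, hc, hc0⟩ := (Submodule.ne_bot_iff _).1 hker
  have hL : L c = 0 := LinearMap.mem_ker.1 hc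
  set F : V1 := ∑ i, c i • bV i with hF
  have hJF : J1 F = ∑ i, c i • J1 (bV i) := by rw [hF, map_sum]; simp
  have h1 : inner ℝ u1 (J1 F) = (0 : ℝ) := by
    have := congrFun hL 0
    rw [hJF, inner_sum]
    simp only [inner_smul_right]
    simpa [L] using this
  have h2 : inner ℝ u2 (J1 F) = (0 : ℝ) := by
    have := congrFun hL 1
    rw [hJF, inner_sum]
    simp only [inner_smul_right]
    simpa [L] using this
  have hne : J1 F ≠ 0 := by
    obtain ⟨i, hi⟩ : ∃ i, c i ≠ 0 := by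
      by_contra hno
      push Not at hno
      exact hc0 (funext hno)
    intro h0
    have h3 : inner ℝ (J1 (bV i)) (J1 F) = (0 : ℝ) := by rw [h0]; simp
    rw [hJF, inner_sum, Finset.sum_eq_single i] at h3
    · rw [inner_smul_right, real_inner_self_eq_norm_sq] at h3
      rcases mul_eq_zero.1 h3 with h4 | h4
      · exact hi h4
      · exact bV_ne i (norm_eq_zero.1 (pow_eq_zero_iff (two_ne_zero)|>.1 h4))
    · intro j _ hj
      rw [inner_smul_right, bV_orth (Ne.symm hj), mul_zero]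
    · simp
  have hpos : 0 < ‖J1 F‖ := norm_pos_iff.mpr hne
  refine ⟨‖J1 F‖⁻¹ • F, ?_, ?_, ?_⟩
  · rw [map_smul, norm_smul, norm_inv, norm_norm, inv_mul_cancel₀ hpos.ne']
  · rw [map_smul, inner_smul_right, h1, mul_zero]
  · rw [map_smul, inner_smul_right, h2, mul_zero]

/-! ### sign and simplicity -/

section sign

variable {v : R3 → ℝ} (hv : MemV v)

theorem low_of (e : ℝ) (hlow : ∀ k, 0 ≤ (QV hv).A e k k) (f : R3 → ℝ) (g : Fin 3 → R3 → ℝ)
    (h : H1 f g) : 0 ≤ qf v e f g f g := by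
  rw [← QV_A_toV hv e h h]
  exact hlow _

theorem sign_V1 (e : ℝ) (hlow : ∀ k, 0 ≤ (QV hv).A e k k) (f : V1) (h1 : ‖J1 f‖ = 1)
    (hB : (QV hv).B f f = e) : (∀ᵐ x, 0 < J1 f x) ∨ (∀ᵐ x, J1 f x < 0) := by
  refine H95.sign_of_min hv (low_of hv e hlow) (H1_of f) ?_ ?_
  · have : ∫ x, J1 f x ^ 2 = 1 := by rw [← norm_sq_eq', h1, one_pow]
    rw [this]; exact one_ne_zero
  · rw [← QV_A hv, QForm.A_self, hB, QV_J, h1]; ring

theorem int_ne_zero {f : R3 → ℝ} (hi : Integrable f) (h : (∀ᵐ x, 0 < f x) ∨ (∀ᵐ x, f x < 0)) :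
    ∫ x, f x ≠ 0 := by
  have key : ∀ {f : R3 → ℝ}, Integrable f → (∀ᵐ x, 0 < f x) → 0 < ∫ x, f x := by
    intro f hi h
    rw [integral_pos_iff_support_of_nonneg_ae (h.mono fun x hx => hx.le) hi]
    have : (Function.support f : Set R3) =ᵐ[volume] Set.univ := by
      filter_upwards [h] with x hx
      have : x ∈ Function.support f := hx.ne'
      exact eq_true this
    rw [measure_congr this]
    simp
  rcases h with h | h
  · exact (key hi h).ne'
  · have := key hi.neg (h.mono fun x hx => by simpa using hx)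
    rw [Pi.neg_def, integral_neg] at this
    linarith

theorem simple_V1 (e : ℝ) (f g : V1) (hlow : ∀ k, 0 ≤ (QV hv).A e k k) (h1 : ‖J1 f‖ = 1)
    (hB : (QV hv).B f f = e) (h2 : ‖J1 g‖ = 1) (hB2 : (QV hv).B g g = e) :
    inner ℝ (J1 f) (J1 g) ≠ (0 : ℝ) := by
  rw [inner_eq]
  have hi : Integrable (fun x => J1 f x * J1 g x) (volume : Measure R3) :=
    (Lp.memLp (J1 f)).integrable_mul (Lp.memLp (J1 g))
  refine int_ne_zero hi ?_
  rcases sign_V1 hv e hlow f h1 hB with a | a <;> rcases sign_V1 hv e hlow g h2 hB2 with b | b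
  · left; filter_upwards [a, b] with x p q using mul_pos p q
  · right; filter_upwards [a, b] with x p q using mul_neg_of_pos_of_neg p q
  · right; filter_upwards [a, b] with x p q using mul_neg_of_neg_of_pos p q
  · left; filter_upwards [a, b] with x p q using mul_pos_of_neg_of_neg p q

end sign

end

end Vale.Agent.P363.H574
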