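import Mathlib.MeasureTheory.Function.LpSpace.InfiniteSum
import Vale.Agent.P363.H574.Dim

/-! Square-summable combinations of the members of a natural family. -/

namespace Vale.Agent.P363.H574

open MeasureTheory Filter Topology
open Vale.Agent.P363.Stmt
open Vale.Agent.P363.R.Sob
open Vale.Agent.P363.R.KS (H1 qf KSData)
open scoped ContDiff ENNReal

noncomputable section

/-! ### Cauchy-Schwarz for real series -/

theorem summable_mul_sq {ι : Type*} {a b : ι → ℝ} (ha : Summable fun j => a j ^ 2)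
    (hb : Summable fun j => b j ^ 2) : Summable fun j => a j * b j := by
  refine Summable.of_norm_bounded (ha.add hb) fun j => ?_
  rw [Real.norm_eq_abs, abs_mul]
  nlinarith [sq_nonneg (|a j| - |b j|), sq_abs (a j), sq_abs (b j), sq_nonneg (a j), sq_nonneg (b j)]

theorem summable_abs_mul_sq {ι : Type*} {a b : ι → ℝ} (ha : Summable fun j => a j ^ 2)
    (hb : Summable fun j => b j ^ 2) : Summable fun j => |a j| * |b j| := by
  have := (summable_mul_sq ha hb).abs
  simpa only [abs_mul] using this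

theorem tsum_mul_sq_le {ι : Type*} {a b : ι → ℝ} (ha : Summable fun j => a j ^ 2)
    (hb : Summable fun j => b j ^ 2) :
    (∑' j, a j * b j) ^ 2 ≤ (∑' j, a j ^ 2) * ∑' j, b j ^ 2 := by
  have hab := summable_mul_sq ha hb
  have h : ∀ s : Finset ι, (∑ j ∈ s, a j * b j) ^ 2 ≤ (∑' j, a j ^ 2) * ∑' j, b j ^ 2 := by
    intro s
    refine (Finset.sum_mul_sq_le_sq_mul_sq s a b).trans ?_
    exact mul_le_mul (ha.sum_le_tsum s fun _ _ => sq_nonneg _)
      (hb.sum_le_tsum s fun _ _ => sq_nonneg _) (Finset.sum_nonneg fun _ _ => sq_nonneg _)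
      (tsum_nonneg fun _ => sq_nonneg _)
  exact le_of_tendsto (hab.hasSum.pow 2) (Eventually.of_forall h)

/-- square-summable combinations of square-summable vectors -/
theorem summable_smul_sq {ι W : Type*} [NormedAddCommGroup W] [NormedSpace ℝ W] [CompleteSpace W]
    {c : ι → ℝ} {x : ι → W} (hc : Summable fun j => c j ^ 2) (hx : Summable fun j => ‖x j‖ ^ 2) :
    Summable fun j => ‖c j • x j‖ := by
  have := summable_abs_mul_sq hc hx
  refine this.congr fun j => ?_
  rw [norm_smul, Real.norm_eq_abs, abs_norm]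

theorem norm_tsum_smul_sq_le {ι W : Type*} [NormedAddCommGroup W] [NormedSpace ℝ W]
    [CompleteSpace W] {c : ι → ℝ} {x : ι → W} (hc : Summable fun j => c j ^ 2)
    (hx : Summable fun j => ‖x j‖ ^ 2) {b : W} (hb : HasSum (fun j => c j • x j) b) :
    ‖b‖ ^ 2 ≤ (∑' j, c j ^ 2) * ∑' j, ‖x j‖ ^ 2 := by
  have h1 := summable_smul_sq hc hx
  have h2 : ‖b‖ ≤ ∑' j, |c j| * ‖x j‖ := by
    rw [← hb.tsum_eq]
    refine (norm_tsum_le_tsum_norm h1).trans (le_of_eq ?_)
    exact tsum_congr fun j => by rw [norm_smul, Real.norm_eq_abs]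
  have h3 := tsum_mul_sq_le (a := fun j => |c j|) (b := fun j => ‖x j‖) (by simpa using hc) hx
  simp only [sq_abs] at h3
  refine (pow_le_pow_left₀ (norm_nonneg _) h2 2).trans h3

section fam

variable {v ρ : R3 → ℝ} {E : ℝ} {ι : Type} {h : ι → R3 → ℝ} {g : ι → Fin 3 → R3 → ℝ}

/-- members of the family as vectors of `H¹`. -/
def hV (N : NatFam v ρ E h g) (j : ι) : V1 := toV (N.h1 j)

variable (N : NatFam v ρ E h g)

theorem inner_hV (u : LR) (j : ι) : (inner ℝ u (J1 (hV N j)) : ℝ) = ∫ x, u x * h j x := by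
  rw [inner_eq]
  refine integral_congr_ae ?_
  filter_upwards [J1_toV_ae (N.h1 j)] with x hx
  unfold hV
  rw [hx]

theorem norm_J_hV (j : ι) : ‖J1 (hV N j)‖ ^ 2 = ∫ x, h j x ^ 2 := norm_toLp_sq' (N.h1 j).mem

theorem norm_D_hV (j : ι) (k : Fin 3) : ‖D1 k (hV N j)‖ ^ 2 = ∫ x, g j k x ^ 2 :=
  norm_toLp_sq' ((N.h1 j).gmem k)

theorem sum_D_hV (j : ι) : ∑ k, ‖D1 k (hV N j)‖ ^ 2 = ∫ x, ∑ k, g j k x ^ 2 := by
  rw [integral_finsetSum _ fun k _ =>
    (memLp_two_iff_integrable_sq ((N.h1 j).gmem k).1).1 ((N.h1 j).gmem k)]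
  exact Finset.sum_congr rfl fun k _ => norm_D_hV N j k

theorem hasSum_norm_J : HasSum (fun j => ‖J1 (hV N j)‖ ^ 2) 5 := by
  simpa only [norm_J_hV] using N.mass

theorem summable_norm_hV : Summable fun j => ‖hV N j‖ ^ 2 := by
  refine ((hasSum_norm_J N).summable.add N.kin).congr fun j => ?_
  rw [norm_V1_sq, sum_D_hV]

theorem summable_D_hV (k : Fin 3) : Summable fun j => ‖D1 k (hV N j)‖ ^ 2 := by
  refine Summable.of_nonneg_of_le (fun j => sq_nonneg _) (fun j => ?_) N.kin
  rw [← sum_D_hV N j]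
  exact Finset.single_le_sum (f := fun k => ‖D1 k (hV N j)‖ ^ 2) (fun k _ => sq_nonneg _)
    (Finset.mem_univ k)

theorem pauli_V (u : LR) : Summable (fun j => (inner ℝ u (J1 (hV N j)) : ℝ) ^ 2) ∧
    ∑' j, (inner ℝ u (J1 (hV N j)) : ℝ) ^ 2 ≤ 2 * ‖u‖ ^ 2 := by
  simp only [inner_hV, norm_sq_eq']
  exact N.pauli u (Lp.memLp u)

/-- `∑ⱼ cⱼ hⱼ`. -/
def comb (c : ι → ℝ) : V1 := ∑' j, c j • hV N j

variable {c : ι → ℝ}

theorem hasSum_comb (hc : Summable fun j => c j ^ 2) :
    HasSum (fun j => c j • hV N j) (comb N c) :=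
  (summable_smul_sq hc (summable_norm_hV N)).of_norm.hasSum

theorem hasSum_comb_J (hc : Summable fun j => c j ^ 2) :
    HasSum (fun j => c j • J1 (hV N j)) (J1 (comb N c)) := by
  have := (hasSum_comb N hc).mapL J1
  simpa only [map_smul] using this

theorem hasSum_comb_D (hc : Summable fun j => c j ^ 2) (k : Fin 3) :
    HasSum (fun j => c j • D1 k (hV N j)) (D1 k (comb N c)) := by
  have := (hasSum_comb N hc).mapL (D1 k)
  simpa only [map_smul] using this

theorem hasSum_inner_comb (hc : Summable fun j => c j ^ 2) (u : LR) :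
    HasSum (fun j => c j * (inner ℝ u (J1 (hV N j)) : ℝ)) (inner ℝ u (J1 (comb N c))) := by
  have := (hasSum_comb_J N hc).mapL (innerSL ℝ u)
  simpa only [innerSL_apply_apply, inner_smul_right] using this

theorem comb_ae_hasSum [Countable ι] (hc : Summable fun j => c j ^ 2) :
    ∀ᵐ x, HasSum (fun j => c j * h j x) (J1 (comb N c) x) := by
  have h1 : Summable fun j => ‖c j • J1 (hV N j)‖ :=
    summable_smul_sq hc (hasSum_norm_J N).summable
  have h2 : ∑' j, ‖c j • J1 (hV N j)‖ₑ ≠ (⊤ : ℝ≥0∞) := by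
    have := h1.tsum_ofReal_ne_top
    simpa only [ofReal_norm] using this
  have h3 := Lp.hasSum_coeFn_tsum h2
  rw [(hasSum_comb_J N hc).tsum_eq] at h3
  have h4 : ∀ᵐ x, ∀ j, (c j • J1 (hV N j) : LR) x = c j * h j x := by
    rw [ae_all_iff]
    intro j
    filter_upwards [Lp.coeFn_smul (c j) (J1 (hV N j)), J1_toV_ae (N.h1 j)] with x a b
    rw [a, Pi.smul_apply, smul_eq_mul]
    unfold hV
    rw [b]
  filter_upwards [h3, h4] with x a b
  simpa only [b] using a

theorem comb_sq_le [Countable ι] (hc : Summable fun j => c j ^ 2) :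
    ∀ᵐ x, (J1 (comb N c) x) ^ 2 ≤ (∑' j, c j ^ 2) * ρ x := by
  filter_upwards [comb_ae_hasSum N hc, N.dens] with x a b
  rw [← a.tsum_eq, ← b.tsum_eq]
  exact tsum_mul_sq_le hc b.summable

theorem comb_D_le (hc : Summable fun j => c j ^ 2) (k : Fin 3) :
    ‖D1 k (comb N c)‖ ^ 2 ≤ (∑' j, c j ^ 2) * ∑' j, ‖D1 k (hV N j)‖ ^ 2 :=
  norm_tsum_smul_sq_le hc (summable_D_hV N k) (hasSum_comb_D N hc k)

end fam

/-- weak derivatives are unique: `J1` is injective. -/
theorem J1_inj {u w : V1} (h : J1 u = J1 w) : u = w := by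
  apply Subtype.ext
  refine PiLp.ext fun p => ?_
  rcases p with _ | k
  · exact h
  · refine Lp.ext ?_
    have h1 := u.2 k
    have h2 := w.2 k
    have h3 : (u : AmbR) none = (w : AmbR) none := h
    rw [h3] at h1
    exact h1.unique h2 (locInt _) (locInt _)

end

end Vale.Agent.P363.H574
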