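import Vale.Agent.P363.R.KS.Defs
import Vale.Agent.P363.R.Top.Defs

/-! Block B6 (KS structure): the real natural family of a ground-state ensemble of five
non-interacting electrons. -/

namespace Vale.Agent.P363.H574

open MeasureTheory Filter Topology
open Vale.Agent.P363.Stmt
open Vale.Agent.P363.R.Sob
open Vale.Agent.P363.R.KS (H1 qf KSData)
open scoped ContDiff ENNReal

noncomputable section

/-- kinetic energy of a state -/
def kinE {N : ℕ} (Ψ : ElectronState N) : ℝ :=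
  (1 / 2) * ∑ s, ∑ i, ∑ k, intR fun x => ‖Ψ.grad s i k x‖ ^ 2

/-- `(h j)` (with gradients `g j`) is a real family representing the spin-summed one-particle
density matrix `γ = ∑ⱼ |h j⟩⟨h j|` (real part) of a ground-state ensemble of 5 electrons in the
potential `v` with density `ρ`; `E` is the ground-state energy. -/
structure NatFam (v ρ : R3 → ℝ) (E : ℝ) {ι : Type} (h : ι → R3 → ℝ)
    (g : ι → Fin 3 → R3 → ℝ) : Prop where
  memV : MemV v
  h1 : ∀ j, H1 (h j) (g j)
  dens : ∀ᵐ x, HasSum (fun j => h j x ^ 2) (ρ x)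
  dens_int : Integrable ρ
  mass : HasSum (fun j => ∫ x, h j x ^ 2) 5
  kin : Summable (fun j => ∫ x, ∑ k, g j k x ^ 2)
  pauli : ∀ u : R3 → ℝ, MemLp u 2 (volume : Measure R3) →
    Summable (fun j => (∫ x, u x * h j x) ^ 2) ∧
      ∑' j, (∫ x, u x * h j x) ^ 2 ≤ 2 * ∫ x, u x ^ 2
  en : HasSum (fun j => qf v 0 (h j) (g j) (h j) (g j)) E
  /-- trial Slater determinants with occupations (2,2,1) -/
  trial : ∀ (f : Fin 3 → R3 → ℝ) (gf : Fin 3 → Fin 3 → R3 → ℝ), (∀ i, H1 (f i) (gf i)) →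
    (∀ i j, ∫ x, f i x * f j x = if i = j then 1 else 0) →
    E ≤ 2 * qf v 0 (f 0) (gf 0) (f 0) (gf 0) + 2 * qf v 0 (f 1) (gf 1) (f 1) (gf 1) +
      qf v 0 (f 2) (gf 2) (f 2) (gf 2)
  /-- minimality of the kinetic energy among all states with the same density -/
  kin_le : ∀ Ψ : ElectronState 5, normSq Ψ = 1 → (∀ᵐ x, density Ψ x = ρ x) →
    (1 / 2) * ∑' j, ∫ x, ∑ k, g j k x ^ 2 ≤ kinE Ψ

end

end Vale.Agent.P363.H574
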