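import Vale.Agent.P363.MathlibUsed

/-! Abstract structure theorem for a one-body form and a natural family of a non-interacting
ground-state ensemble of 5 fermions with spin. -/

namespace Vale.Agent.P363.H574

open Filter Topology

noncomputable section

variable {V H : Type*} [NormedAddCommGroup V] [InnerProductSpace ℝ V]
  [NormedAddCommGroup H] [InnerProductSpace ℝ H]

/-- A closed semibounded real quadratic form `B` with form domain `V` in `H` (`J : V → H`). -/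
structure QForm (V H : Type*) [NormedAddCommGroup V] [InnerProductSpace ℝ V]
    [NormedAddCommGroup H] [InnerProductSpace ℝ H] where
  J : V →L[ℝ] H
  B : V →L[ℝ] V →L[ℝ] ℝ
  symm : ∀ f g, B f g = B g f
  c : ℝ
  C : ℝ
  c_pos : 0 < c
  coer : ∀ f, c * ‖f‖ ^ 2 ≤ B f f + C * ‖J f‖ ^ 2

namespace QForm

variable (D : QForm V H)

/-- the shifted form `B - e` -/
def A (e : ℝ) (f g : V) : ℝ := D.B f g - e * inner ℝ (D.J f) (D.J g)

theorem A_symm (e : ℝ) (f g : V) : D.A e f g = D.A e g f := by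
  unfold A; rw [D.symm, real_inner_comm]

theorem A_self (e : ℝ) (f : V) : D.A e f f = D.B f f - e * ‖D.J f‖ ^ 2 := by
  unfold A; rw [real_inner_self_eq_norm_sq]

theorem A_add_left (e : ℝ) (f g k : V) : D.A e (f + g) k = D.A e f k + D.A e g k := by
  unfold A; simp only [map_add, add_apply, inner_add_left]; ring

theorem A_smul_left (e t : ℝ) (f k : V) : D.A e (t • f) k = t * D.A e f k := by
  unfold A; simp only [map_smul, smul_apply, inner_smul_left, smul_eq_mul,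
    RCLike.conj_to_real]; ring

theorem A_add_right (e : ℝ) (f g k : V) : D.A e k (f + g) = D.A e k f + D.A e k g := by
  rw [D.A_symm e k, D.A_symm e k, D.A_symm e k, A_add_left]

theorem A_smul_right (e t : ℝ) (f k : V) : D.A e k (t • f) = t * D.A e k f := by
  rw [D.A_symm e k, D.A_symm e k, A_smul_left]

theorem A_expand (e t : ℝ) (f g : V) :
    D.A e (f + t • g) (f + t • g) = D.A e f f + 2 * t * D.A e f g + t ^ 2 * D.A e g g := by
  rw [A_add_left, A_add_right, A_add_right, A_smul_left, A_smul_left, A_smul_right, A_smul_right,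
    D.A_symm e g f]; ring

theorem A_sub_self (e : ℝ) (f g : V) :
    D.A e (f - g) (f - g) = D.A e f f - 2 * D.A e f g + D.A e g g := by
  have := D.A_expand e (-1) f g
  rw [neg_one_smul, ← sub_eq_add_neg] at this
  rw [this]; ring

theorem A_add_self (e : ℝ) (f g : V) :
    D.A e (f + g) (f + g) = D.A e f f + 2 * D.A e f g + D.A e g g := by
  have := D.A_expand e 1 f g
  rw [one_smul] at this
  rw [this]; ring

theorem A_smul_self (e t : ℝ) (f : V) : D.A e (t • f) (t • f) = t ^ 2 * D.A e f f := by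
  rw [A_smul_left, A_smul_right]; ring

/-- a null vector of a non-negative form is in its kernel -/
theorem A_eq_zero (K : Submodule ℝ V) (e : ℝ) (hK : ∀ f ∈ K, 0 ≤ D.A e f f) {f g : V}
    (hf : f ∈ K) (hg : g ∈ K) (h0 : D.A e f f = 0) : D.A e f g = 0 := by
  by_contra hne
  have key : ∀ t : ℝ, 0 ≤ 2 * t * D.A e f g + t ^ 2 * D.A e g g := by
    intro t
    have := hK (f + t • g) (K.add_mem hf (K.smul_mem t hg))
    rw [A_expand, h0] at this
    linarith
  have hgg : 0 ≤ D.A e g g := hK g hg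
  set a := D.A e f g
  set b := D.A e g g
  have h1 := key (-a / (b + 1))
  have hb : 0 < b + 1 := by linarith
  have : 2 * (-a / (b + 1)) * a + (-a / (b + 1)) ^ 2 * b
      = -(a ^ 2 * (b + 2)) / (b + 1) ^ 2 := by
    field_simp; ring
  rw [this] at h1
  have h2 : 0 < a ^ 2 * (b + 2) := by positivity
  have h3 : -(a ^ 2 * (b + 2)) / (b + 1) ^ 2 < 0 := by
    apply div_neg_of_neg_of_pos (by linarith) (by positivity)
  linarith

theorem B_eq (e : ℝ) (f g : V) : D.B f g = D.A e f g + e * inner ℝ (D.J f) (D.J g) := by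
  unfold A; ring

theorem B_self_eq (e : ℝ) (f : V) : D.B f f = D.A e f f + e * ‖D.J f‖ ^ 2 := by
  rw [A_self]; ring

theorem B_lower (f : V) : -D.C * ‖D.J f‖ ^ 2 ≤ D.B f f := by
  have := D.coer f
  have h2 : 0 ≤ D.c * ‖f‖ ^ 2 := mul_nonneg D.c_pos.le (sq_nonneg _)
  linarith

theorem B_nonneg_of_J (f : V) (h : D.J f = 0) : 0 ≤ D.B f f := by
  have := D.B_lower f
  simpa [h] using this

/-- INF LEMMA: a minimising problem on a closed subspace `K` is solvable or the infimum does not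
change when one more linear condition is imposed. -/
theorem inf_lemma [CompleteSpace V] (K : Submodule ℝ V) (hK : IsClosed (K : Set V)) (e : ℝ)
    (hlow : ∀ f ∈ K, 0 ≤ D.A e f f)
    (hmin : ∀ ε > 0, ∃ f ∈ K, ‖D.J f‖ = 1 ∧ D.B f f < e + ε) :
    (∃ f ∈ K, ‖D.J f‖ = 1 ∧ D.B f f = e) ∨
      ∀ (u : H) (ε : ℝ), 0 < ε → ∃ f ∈ K, inner ℝ u (D.J f) = 0 ∧ ‖D.J f‖ = 1 ∧ D.B f f < e + ε := by
  classical
  by_cases hatt : ∃ f ∈ K, ‖D.J f‖ = 1 ∧ D.B f f = e
  · exact Or.inl hatt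
  right
  intro u ε hε
  have hpos : ∀ n : ℕ, (0 : ℝ) < 1 / ((n : ℝ) + 1) := fun n => by positivity
  choose f hfK hfJ hfB using fun n : ℕ => hmin (1 / ((n : ℝ) + 1)) (hpos n)
  have hA : ∀ n, D.A e (f n) (f n) < 1 / ((n : ℝ) + 1) := by
    intro n
    rw [A_self, hfJ n]
    have := hfB n
    linarith
  have hmem : ∀ n, inner ℝ u (D.J (f n)) ∈ Set.Icc (-‖u‖) ‖u‖ := by
    intro n
    have := abs_real_inner_le_norm u (D.J (f n))
    rw [hfJ n, mul_one] at this
    exact abs_le.mp this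
  obtain ⟨a, -, φ, hφ, hlim⟩ := isCompact_Icc.tendsto_subseq hmem
  have hφn : ∀ n, n ≤ φ n := hφ.id_le
  have hA' : ∀ N n, N ≤ n → D.A e (f (φ n)) (f (φ n)) < 1 / ((N : ℝ) + 1) := by
    intro N n hn
    refine (hA (φ n)).trans_le ?_
    apply one_div_le_one_div_of_le (by positivity)
    have : N ≤ φ n := hn.trans (hφn n)
    exact_mod_cast Nat.add_le_add_right this 1
  have hAsub : ∀ x ∈ K, ∀ y ∈ K, D.A e (x - y) (x - y) ≤ 2 * D.A e x x + 2 * D.A e y y := by
    intro x hx y hy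
    have h1 := hlow (x + y) (K.add_mem hx hy)
    rw [A_add_self] at h1
    rw [A_sub_self]
    linarith
  by_cases hC : CauchySeq (fun n => D.J (f (φ n)))
  · exfalso
    -- then the sequence converges in V
    have hCV : CauchySeq (fun n => f (φ n)) := by
      rw [Metric.cauchySeq_iff]
      intro η hη
      set T : ℝ := |D.C + e| + 1 with hT
      have hTpos : 0 < T := by positivity
      have hcη : 0 < D.c * η ^ 2 := mul_pos D.c_pos (by positivity)
      -- choose N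
      obtain ⟨N1, hN1⟩ := exists_nat_gt (8 / (D.c * η ^ 2))
      rw [Metric.cauchySeq_iff] at hC
      obtain ⟨N2, hN2⟩ := hC (Real.sqrt (D.c * η ^ 2 / (4 * T))) (Real.sqrt_pos.mpr (by positivity))
      refine ⟨max N1 N2, fun m hm n hn => ?_⟩
      have e1 := hA' N1 m (le_of_max_le_left hm)
      have e2 := hA' N1 n (le_of_max_le_left hn)
      have e3 := hN2 m (le_of_max_le_right hm) n (le_of_max_le_right hn)
      rw [dist_eq_norm, ← map_sub] at e3
      have e4 : ‖D.J (f (φ m) - f (φ n))‖ ^ 2 < D.c * η ^ 2 / (4 * T) := by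
        have := Real.lt_sqrt (norm_nonneg _) |>.mp e3
        exact this
      have e5 := hAsub _ (hfK (φ m)) _ (hfK (φ n))
      have e6 := D.coer (f (φ m) - f (φ n))
      rw [D.B_self_eq e] at e6
      have e7 : 1 / ((N1 : ℝ) + 1) < D.c * η ^ 2 / 8 := by
        rw [div_lt_div_iff₀ (by positivity) (by norm_num)]
        rw [div_lt_iff₀ hcη] at hN1
        nlinarith
      have e8 : (e + D.C) * ‖D.J (f (φ m) - f (φ n))‖ ^ 2 ≤ T * (D.c * η ^ 2 / (4 * T)) := by
        have h1 : (e + D.C) * ‖D.J (f (φ m) - f (φ n))‖ ^ 2 ≤ T * ‖D.J (f (φ m) - f (φ n))‖ ^ 2 := by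
          apply mul_le_mul_of_nonneg_right _ (sq_nonneg _)
          rw [hT, add_comm e]
          exact (le_abs_self _).trans (by linarith)
        exact h1.trans (mul_le_mul_of_nonneg_left e4.le hTpos.le)
      have e9 : T * (D.c * η ^ 2 / (4 * T)) = D.c * η ^ 2 / 4 := by
        field_simp
      rw [e9] at e8
      have e10 : D.c * ‖f (φ m) - f (φ n)‖ ^ 2 < D.c * η ^ 2 := by nlinarith
      have e11 : ‖f (φ m) - f (φ n)‖ ^ 2 < η ^ 2 := lt_of_mul_lt_mul_left e10 D.c_pos.le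
      rw [dist_eq_norm]
      exact lt_of_pow_lt_pow_left₀ 2 hη.le e11
    obtain ⟨f0, hf0⟩ := cauchySeq_tendsto_of_complete hCV
    apply hatt
    refine ⟨f0, ?_, ?_, ?_⟩
    · exact hK.mem_of_tendsto hf0 (Eventually.of_forall fun n => hfK (φ n))
    · have h1 : Tendsto (fun n => ‖D.J (f (φ n))‖) atTop (𝓝 ‖D.J f0‖) :=
        ((D.J.continuous.tendsto f0).comp hf0).norm
      have h2 : (fun n => ‖D.J (f (φ n))‖) = fun _ => (1 : ℝ) := by
        funext n; exact hfJ _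
      rw [h2] at h1
      exact (tendsto_nhds_unique h1 tendsto_const_nhds)
    · have hBc : Continuous fun x : V => D.B x x := by fun_prop
      have h1 : Tendsto (fun n => D.B (f (φ n)) (f (φ n))) atTop (𝓝 (D.B f0 f0)) :=
        (hBc.tendsto f0).comp hf0
      have h2 : Tendsto (fun n => D.B (f (φ n)) (f (φ n))) atTop (𝓝 e) := by
        have hz : Tendsto (fun n : ℕ => e + 1 / ((n : ℝ) + 1)) atTop (𝓝 e) := by
          have h5 := (tendsto_const_nhds (x := e) (f := (atTop : Filter ℕ))).add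
            (tendsto_one_div_add_atTop_nhds_zero_nat (𝕜 := ℝ))
          simpa using h5
        refine tendsto_of_tendsto_of_tendsto_of_le_of_le tendsto_const_nhds hz ?_ ?_
        · intro n
          have := hlow _ (hfK (φ n))
          rw [A_self, hfJ] at this
          show e ≤ _
          linarith
        · intro n
          have h3 := hA' n n le_rfl
          rw [A_self, hfJ] at h3
          show _ ≤ e + _
          linarith
      exact tendsto_nhds_unique h1 h2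
  · -- not Cauchy: differences are good trial functions
    rw [Metric.cauchySeq_iff] at hC
    push Not at hC
    obtain ⟨δ, hδ, hC⟩ := hC
    obtain ⟨w, hwK, hw⟩ : ∃ w ∈ K, ∀ h ∈ K, inner ℝ u (D.J (h - (inner ℝ u (D.J h)) • w)) = (0:ℝ) := by
      by_cases hex : ∃ w ∈ K, inner ℝ u (D.J w) ≠ (0 : ℝ)
      · obtain ⟨w0, hw0, hne⟩ := hex
        refine ⟨(inner ℝ u (D.J w0) : ℝ)⁻¹ • w0, K.smul_mem _ hw0, fun h _ => ?_⟩
        rw [map_sub, map_smul, map_smul, inner_sub_right, inner_smul_right, inner_smul_right]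
        field_simp
        ring
      · push Not at hex
        refine ⟨0, K.zero_mem, fun h hh => ?_⟩
        simp [hex h hh]
    set Aw := D.A e w w with hAw
    have hAw0 : 0 ≤ Aw := hlow w hwK
    set jw := ‖D.J w‖ with hjw
    have hjw0 : 0 ≤ jw := norm_nonneg _
    -- choose η
    obtain ⟨η, hη, hη1, hη2⟩ : ∃ η : ℝ, 0 < η ∧ η * jw ≤ δ / 2 ∧ 2 * η ^ 2 * Aw ≤ ε * δ ^ 2 / 16 := by
      refine ⟨min 1 (min (δ / (2 * (jw + 1))) (ε * δ ^ 2 / (32 * (Aw + 1)))), ?_, ?_, ?_⟩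
      · apply lt_min one_pos (lt_min (by positivity) (by positivity))
      · have h1 : min 1 (min (δ / (2 * (jw + 1))) (ε * δ ^ 2 / (32 * (Aw + 1)))) ≤ δ / (2 * (jw + 1)) :=
          (min_le_right _ _).trans (min_le_left _ _)
        calc _ ≤ δ / (2 * (jw + 1)) * jw := mul_le_mul_of_nonneg_right h1 hjw0
          _ = δ / 2 * (jw / (jw + 1)) := by field_simp
          _ ≤ δ / 2 * 1 := by
            apply mul_le_mul_of_nonneg_left _ (by positivity)
            rw [div_le_one (by positivity)]; linarith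
          _ = δ / 2 := mul_one _
      · set η := min 1 (min (δ / (2 * (jw + 1))) (ε * δ ^ 2 / (32 * (Aw + 1)))) with hη
        have h0 : 0 < η := by
          apply lt_min one_pos (lt_min (by positivity) (by positivity))
        have h1 : η ≤ ε * δ ^ 2 / (32 * (Aw + 1)) :=
          (min_le_right _ _).trans (min_le_right _ _)
        have h2 : η ≤ 1 := min_le_left _ _
        have h3 : η ^ 2 ≤ η := by nlinarith
        calc 2 * η ^ 2 * Aw ≤ 2 * η * Aw := by nlinarith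
          _ ≤ 2 * (ε * δ ^ 2 / (32 * (Aw + 1))) * Aw := by
            apply mul_le_mul_of_nonneg_right _ hAw0; linarith
          _ = ε * δ ^ 2 / 16 * (Aw / (Aw + 1)) := by field_simp; ring
          _ ≤ ε * δ ^ 2 / 16 * 1 := by
            apply mul_le_mul_of_nonneg_left _ (by positivity)
            rw [div_le_one (by positivity)]; linarith
          _ = ε * δ ^ 2 / 16 := mul_one _
    obtain ⟨N1, hN1⟩ := exists_nat_gt (128 / (ε * δ ^ 2))
    have hcs : CauchySeq (fun n => inner ℝ u (D.J (f (φ n))) : ℕ → ℝ) := hlim.cauchySeq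
    rw [Metric.cauchySeq_iff] at hcs
    obtain ⟨N2, hN2⟩ := hcs η hη
    obtain ⟨m, hm, n, hn, hmn⟩ := hC (max N1 N2)
    set h := f (φ m) - f (φ n) with hh
    have hhK : h ∈ K := K.sub_mem (hfK _) (hfK _)
    set τ : ℝ := inner ℝ u (D.J h) with hτ
    have hτη : |τ| < η := by
      have := hN2 m (le_of_max_le_right hm) n (le_of_max_le_right hn)
      rw [Real.dist_eq] at this
      rw [hτ, hh, map_sub, inner_sub_right]
      exact this
    have hJh : δ ≤ ‖D.J h‖ := by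
      rw [dist_eq_norm, ← map_sub] at hmn
      exact hmn
    have hAh : D.A e h h ≤ ε * δ ^ 2 / 32 := by
      have e1 := hA' N1 m (le_of_max_le_left hm)
      have e2 := hA' N1 n (le_of_max_le_left hn)
      have e5 := hAsub _ (hfK (φ m)) _ (hfK (φ n))
      have e7 : 1 / ((N1 : ℝ) + 1) < ε * δ ^ 2 / 128 := by
        rw [div_lt_div_iff₀ (by positivity) (by norm_num)]
        rw [div_lt_iff₀ (by positivity)] at hN1
        nlinarith
      rw [hh]
      linarith
    set k := h - τ • w with hk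
    have hkK : k ∈ K := K.sub_mem hhK (K.smul_mem _ hwK)
    have hAk : D.A e k k ≤ ε * δ ^ 2 / 8 := by
      have e1 := hAsub h hhK (τ • w) (K.smul_mem _ hwK)
      rw [A_smul_self] at e1
      have e2 : τ ^ 2 ≤ η ^ 2 := by
        rw [← sq_abs τ]
        exact pow_le_pow_left₀ (abs_nonneg _) hτη.le 2
      have e3 : 2 * (τ ^ 2 * Aw) ≤ 2 * η ^ 2 * Aw := by
        have := mul_le_mul_of_nonneg_right e2 hAw0
        linarith
      linarith
    have hJk : δ / 2 ≤ ‖D.J k‖ := by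
      have e1 : ‖D.J h‖ ≤ ‖D.J k‖ + |τ| * jw := by
        have : D.J h = D.J k + τ • D.J w := by rw [hk]; simp
        rw [this]
        refine (norm_add_le _ _).trans ?_
        rw [norm_smul, Real.norm_eq_abs]
      have e2 : |τ| * jw ≤ δ / 2 := (mul_le_mul_of_nonneg_right hτη.le hjw0).trans hη1
      linarith
    have hJkpos : 0 < ‖D.J k‖ := by linarith
    refine ⟨‖D.J k‖⁻¹ • k, K.smul_mem _ hkK, ?_, ?_, ?_⟩
    · rw [map_smul, inner_smul_right]
      have : inner ℝ u (D.J k) = (0 : ℝ) := hw h hhK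
      rw [this, mul_zero]
    · rw [map_smul, norm_smul, norm_inv, norm_norm, inv_mul_cancel₀ hJkpos.ne']
    · rw [D.B_self_eq e, A_smul_self, map_smul, norm_smul, norm_inv, norm_norm,
        inv_mul_cancel₀ hJkpos.ne', one_pow, mul_one, add_comm]
      have : (‖D.J k‖⁻¹) ^ 2 * D.A e k k < ε := by
        rw [inv_pow, inv_mul_eq_div, div_lt_iff₀ (by positivity)]
        have h1 : (δ / 2) ^ 2 ≤ ‖D.J k‖ ^ 2 := pow_le_pow_left₀ (by positivity) hJk 2
        have h2 : ε * (δ / 2) ^ 2 ≤ ε * ‖D.J k‖ ^ 2 := mul_le_mul_of_nonneg_left h1 hε.le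
        have h3 : 0 < ε * δ ^ 2 := by positivity
        nlinarith
      linarith

/-- vectors whose image is orthogonal to `u` -/
def perp (u : H) : Submodule ℝ V where
  carrier := {f | inner ℝ u (D.J f) = (0 : ℝ)}
  add_mem' := by
    intro a b ha hb
    simp only [Set.mem_ofPred_eq, map_add, inner_add_right] at *
    rw [ha, hb, add_zero]
  zero_mem' := by simp
  smul_mem' := by
    intro t a ha
    simp only [Set.mem_ofPred_eq, map_smul, inner_smul_right] at *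
    rw [ha, mul_zero]

theorem mem_perp {u : H} {f : V} : f ∈ D.perp u ↔ inner ℝ u (D.J f) = (0 : ℝ) := Iff.rfl

theorem isClosed_perp (u : H) : IsClosed (D.perp u : Set V) := by
  have : (D.perp u : Set V) = (fun f => inner ℝ u (D.J f)) ⁻¹' {(0 : ℝ)} := by
    ext f; simp [mem_perp]
  rw [this]
  exact isClosed_singleton.preimage (by fun_prop)

theorem exists_inf (K : Submodule ℝ V) (hne : ∃ f ∈ K, ‖D.J f‖ = 1) :
    ∃ e : ℝ, (∀ f ∈ K, 0 ≤ D.A e f f) ∧ ∀ ε > 0, ∃ f ∈ K, ‖D.J f‖ = 1 ∧ D.B f f < e + ε := by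
  set S : Set ℝ := {x | ∃ f ∈ K, ‖D.J f‖ = 1 ∧ D.B f f = x} with hS
  have hSne : S.Nonempty := by
    obtain ⟨f, hf, h1⟩ := hne
    exact ⟨_, f, hf, h1, rfl⟩
  have hSb : BddBelow S := by
    refine ⟨-D.C, ?_⟩
    rintro x ⟨f, hf, h1, rfl⟩
    have := D.B_lower f
    rw [h1] at this
    linarith
  refine ⟨sInf S, ?_, ?_⟩
  · intro f hf
    by_cases h0 : D.J f = 0
    · rw [A_self, h0]
      simpa using D.B_nonneg_of_J f h0
    · have hpos : 0 < ‖D.J f‖ := norm_pos_iff.mpr h0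
      have hm : D.B (‖D.J f‖⁻¹ • f) (‖D.J f‖⁻¹ • f) ∈ S := by
        refine ⟨_, K.smul_mem _ hf, ?_, rfl⟩
        rw [map_smul, norm_smul, norm_inv, norm_norm, inv_mul_cancel₀ hpos.ne']
      have h1 := csInf_le hSb hm
      rw [D.B_self_eq 0, A_smul_self] at h1
      simp only [zero_mul, add_zero] at h1
      have h2 : D.A 0 f f = D.B f f := by rw [A_self]; ring
      rw [h2, inv_pow, inv_mul_eq_div, le_div_iff₀ (by positivity)] at h1
      rw [A_self]
      linarith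
  · intro ε hε
    obtain ⟨x, ⟨f, hf, h1, rfl⟩, hx⟩ := exists_lt_of_csInf_lt hSne (lt_add_of_pos_right (sInf S) hε)
    exact ⟨f, hf, h1, hx⟩

/-- component orthogonal to the normalised vector `φ` -/
def prj (φ f : V) : V := f - (inner ℝ (D.J φ) (D.J f) : ℝ) • φ

theorem prj_add (φ f : V) : f = D.prj φ f + (inner ℝ (D.J φ) (D.J f) : ℝ) • φ := by
  unfold prj; simp

theorem prj_mem {φ : V} (h1 : ‖D.J φ‖ = 1) (f : V) : D.prj φ f ∈ D.perp (D.J φ) := by
  rw [mem_perp]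
  unfold prj
  rw [map_sub, map_smul, inner_sub_right, inner_smul_right, real_inner_self_eq_norm_sq, h1]
  ring

theorem prj_norm {φ : V} (h1 : ‖D.J φ‖ = 1) (f : V) :
    ‖D.J (D.prj φ f)‖ ^ 2 = ‖D.J f‖ ^ 2 - (inner ℝ (D.J φ) (D.J f)) ^ 2 := by
  unfold prj
  rw [map_sub, map_smul, @norm_sub_sq_real, norm_smul, inner_smul_right, h1,
    real_inner_comm (D.J φ) (D.J f)]
  rw [mul_one, Real.norm_eq_abs, sq_abs]
  ring

theorem A_eigen {φ : V} {e₁ : ℝ} (hφ : ∀ g, D.B φ g = e₁ * inner ℝ (D.J φ) (D.J g)) (e : ℝ) (g : V) :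
    D.A e φ g = (e₁ - e) * inner ℝ (D.J φ) (D.J g) := by
  unfold A; rw [hφ]; ring

/-- energy splitting w.r.t. a normalised eigenvector -/
theorem A_split {φ : V} {e₁ : ℝ} (h1 : ‖D.J φ‖ = 1)
    (hφ : ∀ g, D.B φ g = e₁ * inner ℝ (D.J φ) (D.J g)) (e : ℝ) (f : V) :
    D.A e f f = D.A e (D.prj φ f) (D.prj φ f) + (e₁ - e) * (inner ℝ (D.J φ) (D.J f)) ^ 2 := by
  conv_lhs => rw [D.prj_add φ f]
  rw [A_expand, D.A_symm e (D.prj φ f) φ, D.A_eigen hφ, D.A_eigen hφ,
    D.mem_perp.mp (D.prj_mem h1 f), real_inner_self_eq_norm_sq, h1]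
  ring

theorem eigen_of_min (K : Submodule ℝ V) (e : ℝ) (hlow : ∀ f ∈ K, 0 ≤ D.A e f f) {f : V}
    (hf : f ∈ K) (h1 : ‖D.J f‖ = 1) (he : D.B f f = e) {g : V} (hg : g ∈ K) :
    D.B f g = e * inner ℝ (D.J f) (D.J g) := by
  have h0 : D.A e f f = 0 := by rw [A_self, h1, he]; ring
  have := D.A_eq_zero K e hlow hf hg h0
  unfold A at this
  linarith

/-- normalising a null vector of `A e` -/
theorem exists_att (K : Submodule ℝ V) (e : ℝ) {f : V} (hf : f ∈ K) (h0 : D.J f ≠ 0)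
    (hA : D.A e f f = 0) : ∃ f ∈ K, ‖D.J f‖ = 1 ∧ D.B f f = e := by
  have hpos : 0 < ‖D.J f‖ := norm_pos_iff.mpr h0
  refine ⟨‖D.J f‖⁻¹ • f, K.smul_mem _ hf, ?_, ?_⟩
  · rw [map_smul, norm_smul, norm_inv, norm_norm, inv_mul_cancel₀ hpos.ne']
  · rw [D.B_self_eq e, A_smul_self, hA, map_smul, norm_smul, norm_inv, norm_norm,
        inv_mul_cancel₀ hpos.ne']
    ring

/-- MAIN ABSTRACT STRUCTURE THEOREM. -/
theorem structure_thm [CompleteSpace V] {ι : Type*} (h : ι → V)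
    (hmass : HasSum (fun j => ‖D.J (h j)‖ ^ 2) 5)
    (hpauli : ∀ u : H, ‖u‖ = 1 → Summable (fun j => (inner ℝ u (D.J (h j)) : ℝ) ^ 2) ∧
      ∑' j, (inner ℝ u (D.J (h j)) : ℝ) ^ 2 ≤ 2)
    {E : ℝ} (hE : HasSum (fun j => D.B (h j) (h j)) E)
    (htrial : ∀ f1 f2 f3 : V, ‖D.J f1‖ = 1 → ‖D.J f2‖ = 1 → ‖D.J f3‖ = 1 →
      inner ℝ (D.J f1) (D.J f2) = (0 : ℝ) → inner ℝ (D.J f1) (D.J f3) = (0 : ℝ) →
      inner ℝ (D.J f2) (D.J f3) = (0 : ℝ) → E ≤ 2 * D.B f1 f1 + 2 * D.B f2 f2 + D.B f3 f3)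
    (hclose : ∀ u1 u2 : H, ‖u1‖ = 1 → ‖u2‖ = 1 → inner ℝ u1 u2 = (0 : ℝ) →
      ¬ (∑' j, (inner ℝ u1 (D.J (h j)) : ℝ) ^ 2 = 2 ∧ ∑' j, (inner ℝ u2 (D.J (h j)) : ℝ) ^ 2 = 2))
    (hsimple : ∀ (e : ℝ) (f g : V), (∀ k, 0 ≤ D.A e k k) → ‖D.J f‖ = 1 → D.B f f = e →
      ‖D.J g‖ = 1 → D.B g g = e → inner ℝ (D.J f) (D.J g) ≠ (0 : ℝ))
    (hdim : ∀ u1 u2 : H, ∃ f : V, ‖D.J f‖ = 1 ∧ inner ℝ u1 (D.J f) = (0 : ℝ) ∧
      inner ℝ u2 (D.J f) = (0 : ℝ)) :
    ∃ (φ : V) (e₁ e₂ : ℝ), e₁ < e₂ ∧ ‖D.J φ‖ = 1 ∧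
      (∀ g, D.B φ g = e₁ * inner ℝ (D.J φ) (D.J g)) ∧
      (∀ f, 0 ≤ D.A e₁ f f) ∧
      (∀ f, inner ℝ (D.J φ) (D.J f) = (0 : ℝ) → 0 ≤ D.A e₂ f f) ∧
      HasSum (fun j => (inner ℝ (D.J φ) (D.J (h j)) : ℝ) ^ 2) 2 ∧
      (∀ j g, D.A e₂ (h j) g =
        (e₁ - e₂) * (inner ℝ (D.J φ) (D.J (h j)) : ℝ) * inner ℝ (D.J φ) (D.J g)) ∧
      E = 2 * e₁ + 3 * e₂ := by
  have hatop : ∀ e : ℝ, HasSum (fun j => D.A e (h j) (h j)) (E - e * 5) := by
    intro e
    have := hE.sub (hmass.mul_left e)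
    refine this.congr_fun ?_ |> fun x => x
    intro j; rw [A_self]
  have hex : ∃ j, D.J (h j) ≠ 0 := by
    by_contra hno
    push Not at hno
    have : (fun j => ‖D.J (h j)‖ ^ 2) = fun _ => (0 : ℝ) := by funext j; simp [hno j]
    rw [this] at hmass
    have := hmass.unique hasSum_zero
    norm_num at this
  -- Step 1: the infimum on the whole space is attained
  obtain ⟨e₁, hlow1, hmin1⟩ := D.exists_inf (⊤ : Submodule ℝ V) (by
    obtain ⟨f, hf, -, -⟩ := hdim 0 0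
    exact ⟨f, trivial, hf⟩)
  have hatt1 : ∃ f ∈ (⊤ : Submodule ℝ V), ‖D.J f‖ = 1 ∧ D.B f f = e₁ := by
    rcases D.inf_lemma ⊤ isClosed_univ e₁ hlow1 hmin1 with hh | halt
    · exact hh
    by_contra hna
    have hEle : E ≤ 5 * e₁ := by
      apply le_of_forall_pos_le_add
      intro ε hε
      obtain ⟨f1, -, n1, b1⟩ := hmin1 (ε / 5) (by positivity)
      obtain ⟨f2, -, o12, n2, b2⟩ := halt (D.J f1) (ε / 5) (by positivity)
      rcases D.inf_lemma (D.perp (D.J f1)) (D.isClosed_perp _) e₁ (fun f _ => hlow1 f trivial)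
        (fun ε' hε' => by
          obtain ⟨g, -, a, b, c⟩ := halt (D.J f1) ε' hε'
          exact ⟨g, a, b, c⟩) with ⟨g, -, hg⟩ | halt2
      · exact absurd ⟨g, trivial, hg⟩ hna
      obtain ⟨f3, o13, o23, n3, b3⟩ := halt2 (D.J f2) (ε / 5) (by positivity)
      have := htrial f1 f2 f3 n1 n2 n3 o12 (D.mem_perp.mp o13) o23
      linarith
    have hs := hatop e₁
    have hz : E - e₁ * 5 = 0 := le_antisymm (by linarith)
      (hs.nonneg (fun j => hlow1 _ trivial))
    rw [hz, hasSum_zero_iff_of_nonneg (fun j => hlow1 _ trivial)] at hs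
    obtain ⟨j, hj⟩ := hex
    exact hna (D.exists_att ⊤ e₁ trivial hj (congrFun hs j))
  obtain ⟨φ, -, hφ1, hφB⟩ := hatt1
  have hφ : ∀ g, D.B φ g = e₁ * inner ℝ (D.J φ) (D.J g) := fun g =>
    D.eigen_of_min ⊤ e₁ hlow1 trivial hφ1 hφB trivial
  set K := D.perp (D.J φ) with hK
  -- occupation of φ
  set o : ℝ := ∑' j, (inner ℝ (D.J φ) (D.J (h j)) : ℝ) ^ 2 with ho
  have hosum : HasSum (fun j => (inner ℝ (D.J φ) (D.J (h j)) : ℝ) ^ 2) o :=
    (hpauli _ hφ1).1.hasSum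
  have ho2 : o ≤ 2 := (hpauli _ hφ1).2
  -- Step 2
  obtain ⟨e₂, hlow2, hmin2⟩ := D.exists_inf K (by
    obtain ⟨f, hf, hf2, -⟩ := hdim (D.J φ) 0
    exact ⟨f, hf2, hf⟩)
  have he12 : e₁ ≤ e₂ := by
    apply le_of_forall_pos_le_add
    intro ε hε
    obtain ⟨f1, -, n1, b1⟩ := hmin2 ε hε
    have := hlow1 f1 trivial
    rw [A_self, n1] at this
    linarith
  have hprjsum : ∀ e : ℝ, HasSum (fun j => D.A e (D.prj φ (h j)) (D.prj φ (h j)))
      (E - e * 5 + (e - e₁) * o) := by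
    intro e
    have := (hatop e).add (hosum.mul_left (e - e₁))
    refine this.congr_fun ?_ |> fun x => x
    intro j
    rw [D.A_split hφ1 hφ e (h j)]
    ring
  have hzero : E ≤ 2 * e₁ + 3 * e₂ → (∀ j, D.A e₂ (D.prj φ (h j)) (D.prj φ (h j)) = 0) ∧
      E - e₂ * 5 + (e₂ - e₁) * o = 0 := by
    intro hle
    have hs := hprjsum e₂
    have hnn : ∀ j, 0 ≤ D.A e₂ (D.prj φ (h j)) (D.prj φ (h j)) := fun j =>
      hlow2 _ (D.prj_mem hφ1 _)
    have h2 : (e₂ - e₁) * o ≤ (e₂ - e₁) * 2 := mul_le_mul_of_nonneg_left ho2 (by linarith)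
    have hz : E - e₂ * 5 + (e₂ - e₁) * o = 0 := le_antisymm (by linarith) (hs.nonneg hnn)
    rw [hz, hasSum_zero_iff_of_nonneg hnn] at hs
    exact ⟨fun j => congrFun hs j, hz⟩
  have hatt2 : ∃ f ∈ K, ‖D.J f‖ = 1 ∧ D.B f f = e₂ := by
    rcases D.inf_lemma K (D.isClosed_perp _) e₂ hlow2 hmin2 with hh | halt
    · exact hh
    by_contra hna
    have hEle : E ≤ 2 * e₁ + 3 * e₂ := by
      apply le_of_forall_pos_le_add
      intro ε hε
      obtain ⟨f2, m2, n2, b2⟩ := hmin2 (ε / 3) (by positivity)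
      obtain ⟨f3, m3, o23, n3, b3⟩ := halt (D.J f2) (ε / 3) (by positivity)
      have := htrial φ f2 f3 hφ1 n2 n3 (D.mem_perp.mp m2) (D.mem_perp.mp m3) o23
      linarith
    obtain ⟨hz, -⟩ := hzero hEle
    have hJ0 : ∀ j, D.J (D.prj φ (h j)) = 0 := by
      intro j
      by_contra hne
      exact hna (D.exists_att K e₂ (D.prj_mem hφ1 _) hne (hz j))
    have h5 : (fun j => ‖D.J (h j)‖ ^ 2) = fun j => (inner ℝ (D.J φ) (D.J (h j)) : ℝ) ^ 2 := by
      funext j
      have := D.prj_norm hφ1 (h j)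
      rw [hJ0 j] at this
      simp only [norm_zero, ne_eq, OfNat.ofNat_ne_zero, not_false_eq_true, zero_pow] at this
      linarith
    rw [h5] at hmass
    have := hmass.unique hosum
    linarith
  obtain ⟨ψ, hψK, hψ1, hψB⟩ := hatt2
  -- Step 3
  set K2 : Submodule ℝ V := K ⊓ D.perp (D.J ψ) with hK2
  obtain ⟨e₃, hlow3, hmin3⟩ := D.exists_inf K2 (by
    obtain ⟨f, hf, hf2, hf3⟩ := hdim (D.J φ) (D.J ψ)
    exact ⟨f, ⟨hf2, hf3⟩, hf⟩)
  have he23 : e₂ ≤ e₃ := by
    apply le_of_forall_pos_le_add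
    intro ε hε
    obtain ⟨f1, m1, n1, b1⟩ := hmin3 ε hε
    have := hlow2 f1 m1.1
    rw [A_self, n1] at this
    linarith
  have hE3 : E ≤ 2 * e₁ + 2 * e₂ + e₃ := by
    apply le_of_forall_pos_le_add
    intro ε hε
    obtain ⟨f3, m3, n3, b3⟩ := hmin3 ε hε
    have := htrial φ ψ f3 hφ1 hψ1 n3 (D.mem_perp.mp hψK) (D.mem_perp.mp m3.1) (D.mem_perp.mp m3.2)
    linarith
  have hψ : ∀ g ∈ K, D.B ψ g = e₂ * inner ℝ (D.J ψ) (D.J g) := fun g hg =>
    D.eigen_of_min K e₂ hlow2 hψK hψ1 hψB hg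
  have hψ' : ∀ g, D.B ψ g = e₂ * inner ℝ (D.J ψ) (D.J g) := by
    intro g
    have hcz : inner ℝ (D.J ψ) (D.J φ) = (0 : ℝ) := by
      rw [real_inner_comm]; exact D.mem_perp.mp hψK
    conv_lhs => rw [D.prj_add φ g]
    conv_rhs => rw [D.prj_add φ g]
    rw [map_add, map_smul, map_add, map_smul, inner_add_right, inner_smul_right, hcz,
      hψ _ (D.prj_mem hφ1 g), D.symm ψ φ, hφ, D.mem_perp.mp hψK]
    simp
  have he3 : e₃ = e₂ := by
    by_contra hne
    have hlt : e₂ < e₃ := lt_of_le_of_ne he23 (Ne.symm hne)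
    -- occupation of ψ
    set o' : ℝ := ∑' j, (inner ℝ (D.J ψ) (D.J (h j)) : ℝ) ^ 2 with ho'
    have ho'sum : HasSum (fun j => (inner ℝ (D.J ψ) (D.J (h j)) : ℝ) ^ 2) o' :=
      (hpauli _ hψ1).1.hasSum
    have ho'2 : o' ≤ 2 := (hpauli _ hψ1).2
    have hcz : inner ℝ (D.J ψ) (D.J φ) = (0 : ℝ) := by
      rw [real_inner_comm]; exact D.mem_perp.mp hψK
    have hin : ∀ f, (inner ℝ (D.J ψ) (D.J (D.prj φ f)) : ℝ) = inner ℝ (D.J ψ) (D.J f) := by
      intro f
      unfold prj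
      rw [map_sub, map_smul, inner_sub_right, inner_smul_right, hcz]
      ring
    have hmem2 : ∀ f, D.prj ψ (D.prj φ f) ∈ K2 := by
      intro f
      refine ⟨?_, D.prj_mem hψ1 _⟩
      unfold prj
      exact K.sub_mem (D.prj_mem hφ1 f) (K.smul_mem _ hψK)
    have hs := (hprjsum e₃).add (ho'sum.mul_left (e₃ - e₂))
    have hs2 : HasSum (fun j => D.A e₃ (D.prj ψ (D.prj φ (h j))) (D.prj ψ (D.prj φ (h j))))
        (E - e₃ * 5 + (e₃ - e₁) * o + (e₃ - e₂) * o') := by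
      refine hs.congr_fun ?_ |> fun x => x
      intro j
      rw [D.A_split hψ1 hψ' e₃ (D.prj φ (h j)), hin]
      ring
    have hnn := hs2.nonneg (fun j => hlow3 _ (hmem2 _))
    have h1 : (e₃ - e₁) * (2 - o) ≤ 0 ∧ (e₃ - e₂) * (2 - o') ≤ 0 := by
      have a1 : 0 ≤ (e₃ - e₁) * (2 - o) := mul_nonneg (by linarith) (by linarith)
      have a2 : 0 ≤ (e₃ - e₂) * (2 - o') := mul_nonneg (by linarith) (by linarith)
      constructor <;> nlinarith
    have ho_eq : o = 2 := by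
      by_contra hne2
      have : 0 < (e₃ - e₁) * (2 - o) := mul_pos (by linarith) (by
        rcases lt_or_eq_of_le ho2 with hh | hh
        · linarith
        · exact absurd hh hne2)
      linarith [h1.1]
    have ho'_eq : o' = 2 := by
      by_contra hne2
      have : 0 < (e₃ - e₂) * (2 - o') := mul_pos (by linarith) (by
        rcases lt_or_eq_of_le ho'2 with hh | hh
        · linarith
        · exact absurd hh hne2)
      linarith [h1.2]
    exact hclose (D.J φ) (D.J ψ) hφ1 hψ1 (D.mem_perp.mp hψK) ⟨ho_eq, ho'_eq⟩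
  rw [he3] at hE3
  obtain ⟨hz, hz2⟩ := hzero (by linarith)
  have hlt : e₁ < e₂ := by
    rcases lt_or_eq_of_le he12 with hh | hh
    · exact hh
    exfalso
    refine hsimple e₁ φ ψ (fun k => hlow1 k trivial) hφ1 hφB hψ1 (hψB.trans hh.symm) ?_
    exact D.mem_perp.mp hψK
  have ho_eq : o = 2 := by
    have h3 : (e₂ - e₁) * (2 - o) ≤ 0 := by nlinarith
    by_contra hne2
    have : 0 < (e₂ - e₁) * (2 - o) := mul_pos (by linarith) (by
      rcases lt_or_eq_of_le ho2 with hh | hh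
      · linarith
      · exact absurd hh hne2)
    linarith
  refine ⟨φ, e₁, e₂, hlt, hφ1, hφ, fun f => hlow1 f trivial, fun f hf => hlow2 f hf, ?_, ?_, ?_⟩
  · rw [ho_eq] at hosum; exact hosum
  · intro j g
    have e1 : D.A e₂ (D.prj φ (h j)) (D.prj φ g) = 0 :=
      D.A_eq_zero K e₂ hlow2 (D.prj_mem hφ1 _) (D.prj_mem hφ1 _) (hz j)
    have e2 : D.A e₂ (D.prj φ (h j)) φ = 0 := by
      rw [A_symm, D.A_eigen hφ, D.mem_perp.mp (D.prj_mem hφ1 _), mul_zero]
    conv_lhs => rw [D.prj_add φ (h j)]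
    rw [A_add_left, A_smul_left, D.A_eigen hφ]
    conv_lhs => rw [D.prj_add φ g]
    rw [A_add_right, A_smul_right, e1, e2, ← D.prj_add φ g]
    ring
  · rw [ho_eq] at hz2; linarith

end QForm

end

end Vale.Agent.P363.H574
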