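import Vale.Agent.P363.H574.Struct
import Vale.Agent.P363.H884.Sub

/-! B6.5: the structure theorem (exact statement of `H574/Spec.lean`). -/

namespace Vale.Agent.P363.H574

open MeasureTheory Filter Topology
open Vale.Agent.P363.Stmt
open Vale.Agent.P363.R.Sob
open Vale.Agent.P363.R.KS (H1 qf KSData)
open scoped ContDiff ENNReal

noncomputable section

/-- B6.5. Structure theorem. -/
theorem structure_main' {v ρ : R3 → ℝ} {E : ℝ} {ι : Type} [Countable ι] {h : ι → R3 → ℝ}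
    {g : ι → Fin 3 → R3 → ℝ} (N : NatFam v ρ E h g)
    (hclose : ∀ u₁ u₂ : R3 → ℝ, MemLp u₁ 2 (volume : Measure R3) →
      MemLp u₂ 2 (volume : Measure R3) → ∫ x, u₁ x ^ 2 = 1 → ∫ x, u₂ x ^ 2 = 1 →
      ∫ x, u₁ x * u₂ x = 0 →
      ¬ (∑' j, (∫ x, u₁ x * h j x) ^ 2 = 2 ∧ ∑' j, (∫ x, u₂ x * h j x) ^ 2 = 2))
    (w : R3 → ℝ) (hw : MemLp w 2 (volume : Measure R3)) :
    ∃ (μ δ : ℝ) (φ a : R3 → ℝ) (gφ ga gs : Fin 3 → R3 → ℝ),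
      KSData v μ δ φ a (fun x => Real.sqrt (ρ x)) gφ ga gs ∧
      ∫ x, φ x ^ 2 = 1 ∧
      (∀ u : R3 → ℝ, MemLp u 2 (volume : Measure R3) →
        HasSum (fun j => (∫ x, u x * h j x) * (∫ x, φ x * h j x)) (2 * ∫ x, u x * φ x)) ∧
      (∀ u : R3 → ℝ, MemLp u 2 (volume : Measure R3) →
        HasSum (fun j => (∫ x, u x * h j x) * (∫ x, w x * h j x))
          ((∫ x, u x * a x) + 2 * (∫ x, φ x * w x) * ∫ x, u x * φ x)) ∧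
      (∀ᵐ x, a x ^ 2 ≤ 2 * (∫ y, w y ^ 2) * ρ x) ∧
      (∀ᵐ x, 2 * φ x ^ 2 ≤ ρ x) ∧
      2 * (∫ x, ∑ k, gφ k x ^ 2) ≤ ∑' j, ∫ x, ∑ k, g j k x ^ 2 := by
  obtain ⟨μ, δ, φ, a, hδ, hφ1, hpos, eqφ, eqa, hlow, ⟨c, hc, hsae, heq⟩, hγ, ha, ha2, hφ2, hkin⟩ :=
    structure_pre N hclose w hw
  obtain ⟨hs, -, hsub⟩ := H884.subsolution_ae (φ := J1 φ) N.memV ⟨N.h1, N.dens, N.dens_int, N.kin⟩
    hδ.le (Lp.memLp (J1 φ)) hpos hc hsae heq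
  refine ⟨μ, δ, J1 φ, J1 a, fun k => D1 k φ, fun k => D1 k a, H884.gs ρ h g, ?_, ?_, hγ, ha, ha2,
    hφ2, hkin⟩
  · refine ⟨N.memV, H1_of φ, H1_of a, hs, hδ, hpos, ?_, eqφ, eqa, hsub, hlow⟩
    filter_upwards [hφ2, hpos] with x h1 h2
    refine Real.le_sqrt_of_sq_le ?_
    nlinarith [sq_nonneg (J1 φ x)]
  · rw [← norm_sq_eq', hφ1, one_pow]

end

end Vale.Agent.P363.H574
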