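import Vale.Agent.P363.H382.Conv

/-! Slater determinants of `N` orthonormal spin orbitals of finite kinetic energy. -/

namespace Vale.Agent.P363.H574

open MeasureTheory Filter Topology
open Vale.Agent.P363.Stmt Vale.Agent.P363.R.Sob Vale.Agent.P363.H382
open scoped ContDiff ENNReal ComplexConjugate

noncomputable section

/-! ### tensor products -/

/-- product of one-body functions -/
def tens {N : ℕ} (F : Fin N → R3 → ℂ) (x : Conf N) : ℂ := ∏ j, F j (x j)

theorem aesm_eval {N : ℕ} {f : R3 → ℂ} (hf : AEStronglyMeasurable f volume) (j : Fin N) :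
    AEStronglyMeasurable (fun x : Conf N => f (x j)) volume :=
  hf.comp_quasiMeasurePreserving (Measure.quasiMeasurePreserving_eval (fun _ : Fin N => (volume : Measure R3)) j)

theorem aesm_tens {N : ℕ} {F : Fin N → R3 → ℂ} (hF : ∀ j, AEStronglyMeasurable (F j) volume) :
    AEStronglyMeasurable (tens F) volume := by
  unfold tens
  exact Finset.univ.aestronglyMeasurable_fun_prod fun j _ => aesm_eval (hF j) j

theorem memLp_tens {N : ℕ} {F : Fin N → R3 → ℂ} (hF : ∀ j, MemLp (F j) 2 volume) :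
    MemLp (tens F) 2 volume := by
  rw [memLp_two_iff_integrable_sq_norm (aesm_tens fun j => (hF j).1)]
  have h1 : (fun x : Conf N => ‖tens F x‖ ^ 2) = fun x => ∏ j, (fun r => ‖F j r‖ ^ 2) (x j) := by
    funext x
    unfold tens
    rw [norm_prod, Finset.prod_pow]
  rw [h1]
  exact Integrable.fintype_prod (𝕜 := ℝ) (f := fun j r => ‖F j r‖ ^ 2)
    (μ := fun _ : Fin N => (volume : Measure R3))
    fun j => (memLp_two_iff_integrable_sq_norm (hF j).1).1 (hF j)

theorem ins_eq {n : ℕ} (i : Fin (n + 1)) (r : R3) (y : Conf n) :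
    (i.insertNth r y : Conf (n + 1)) = (i.insertNth 0 y : Conf (n + 1)) + Pi.single i r := by
  funext j
  rcases Fin.eq_self_or_eq_succAbove i j with h | ⟨m, h⟩
  · subst h
    simp
  · subst h
    simp [Fin.succAbove_ne]

theorem ins_mp {n : ℕ} (i : Fin (n + 1)) :
    MeasurePreserving (MeasurableEquiv.piFinSuccAbove (fun _ : Fin (n + 1) => R3) i).symm
      ((volume : Measure R3).prod (volume : Measure (Conf n))) volume :=
  MeasurePreserving.symm _ (volume_preserving_piFinSuccAbove (fun _ : Fin (n + 1) => R3) i)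

theorem integral_ins {n : ℕ} {F : Type*} [NormedAddCommGroup F] [NormedSpace ℝ F]
    (i : Fin (n + 1)) {f : Conf (n + 1) → F} (hf : Integrable f) :
    ∫ x, f x = ∫ y : Conf n, ∫ r : R3, f (i.insertNth r y) := by
  have h1 := (ins_mp (n := n) i).integral_comp (MeasurableEquiv.measurableEmbedding _) f
  rw [← h1]
  have h2 : Integrable (fun z : R3 × Conf n =>
      f ((MeasurableEquiv.piFinSuccAbove (fun _ : Fin (n + 1) => R3) i).symm z))
      ((volume : Measure R3).prod (volume : Measure (Conf n))) :=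
    ((ins_mp (n := n) i).integrable_comp_emb (MeasurableEquiv.measurableEmbedding _)).2 hf
  rw [integral_prod_symm _ h2]
  rfl

theorem test_ins {n : ℕ} (i : Fin (n + 1)) (y : Conf n) {φ : Conf (n + 1) → ℝ} (hφ : Test φ) :
    Test (fun r : R3 => φ (i.insertNth r y)) := by
  have h1 : (fun r : R3 => (i.insertNth r y : Conf (n + 1))) =
      fun r => (i.insertNth 0 y : Conf (n + 1)) + ContinuousLinearMap.single ℝ (fun _ : Fin (n + 1) => R3) i r := by
    funext r
    rw [ins_eq]; rfl
  have hc : ContDiff ℝ ∞ (fun r : R3 => (i.insertNth r y : Conf (n + 1))) := by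
    rw [h1]
    exact contDiff_const.add (ContinuousLinearMap.contDiff _)
  refine ⟨hφ.1.comp hc, ?_⟩
  have hcl : IsClosedEmbedding (fun r : R3 => (i.insertNth r y : Conf (n + 1))) := by
    refine Function.LeftInverse.isClosedEmbedding (f := fun x : Conf (n + 1) => x i) ?_ ?_ hc.continuous
    · intro r; simp
    · exact continuous_apply i
  exact hφ.2.comp_isClosedEmbedding hcl

theorem fderiv_ins {n : ℕ} (i : Fin (n + 1)) (y : Conf n) {φ : Conf (n + 1) → ℝ} (hφ : Test φ)
    (r : R3) (k : Fin 3) :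
    fderiv ℝ φ (i.insertNth r y) (dir i k) = fderiv ℝ (fun r : R3 => φ (i.insertNth r y)) r (e3 k) := by
  have h2 : HasFDerivAt (fun r : R3 => (i.insertNth r y : Conf (n + 1)))
      (ContinuousLinearMap.single ℝ (fun _ : Fin (n + 1) => R3) i) r := by
    have h1 : (fun r : R3 => (i.insertNth r y : Conf (n + 1))) =
        fun r => (i.insertNth 0 y : Conf (n + 1)) + ContinuousLinearMap.single ℝ (fun _ : Fin (n + 1) => R3) i r := by
      funext r
      rw [ins_eq]; rfl
    rw [h1]
    exact (ContinuousLinearMap.hasFDerivAt _).const_add _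
  have h3 : HasFDerivAt φ (fderiv ℝ φ (i.insertNth r y)) (i.insertNth r y) :=
    (hφ.differentiable _).hasFDerivAt
  have h4 := h3.comp r h2
  have h5 : fderiv ℝ (fun r : R3 => φ (i.insertNth r y)) r = _ := h4.fderiv
  rw [h5]
  rfl

theorem tens_ins {n : ℕ} (i : Fin (n + 1)) (F : Fin (n + 1) → R3 → ℂ) (r : R3) (y : Conf n) :
    tens F (i.insertNth r y) = F i r * ∏ j, F (i.succAbove j) (y j) := by
  unfold tens
  rw [Fin.prod_univ_succAbove _ i]
  simp

theorem isWD_tens {n : ℕ} {F : Fin (n + 1) → R3 → ℂ} (hF : ∀ j, MemLp (F j) 2 volume)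
    {i : Fin (n + 1)} {k : Fin 3} {G : R3 → ℂ} (hG : MemLp G 2 volume)
    (hw : IsWD volume (e3 k) (F i) G) :
    IsWD volume (dir i k) (tens F) (tens (Function.update F i G)) := by
  intro φ hφ
  have hF' : ∀ j, MemLp (Function.update F i G j) 2 volume := by
    intro j
    by_cases h : j = i
    · subst h; simpa using hG
    · simpa [h] using hF j
  have l1 : LocallyIntegrable (tens F) := (memLp_tens hF).locallyIntegrable (by norm_num)
  have l2 : LocallyIntegrable (tens (Function.update F i G)) :=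
    (memLp_tens hF').locallyIntegrable (by norm_num)
  rw [integral_ins i ((hφ.fderiv (dir i k)).integrable_smul l1),
    integral_ins i (hφ.integrable_smul l2), ← integral_neg]
  refine integral_congr_ae (ae_of_all _ fun y => ?_)
  simp only [tens_ins, Function.update_self, Function.update_of_ne (Fin.succAbove_ne _ _)]
  have e1 : ∀ r : R3, (fderiv ℝ φ (i.insertNth r y) (dir i k)) • (F i r * ∏ j, F (i.succAbove j) (y j)) =
      ((fderiv ℝ (fun r : R3 => φ (i.insertNth r y)) r (e3 k)) • F i r) *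
        ∏ j, F (i.succAbove j) (y j) := by
    intro r
    rw [fderiv_ins i y hφ, smul_mul_assoc]
  have e2 : ∀ r : R3, (φ (i.insertNth r y)) • (G r * ∏ j, F (i.succAbove j) (y j)) =
      (φ (i.insertNth r y) • G r) * ∏ j, F (i.succAbove j) (y j) := by
    intro r
    rw [smul_mul_assoc]
  simp only [e1, e2]
  rw [integral_mul_const, integral_mul_const, hw _ (test_ins i y hφ), neg_mul]

/-! ### combinatorial core -/

/-- Fubini for a product integrand with a spin sum. -/
theorem sum_integral_prod {N : ℕ} (P : Fin N → Fin 2 → R3 → ℂ) :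
    ∑ s : Fin N → Fin 2, ∫ x : Conf N, ∏ j, P j (s j) (x j) = ∏ j, ∑ t, ∫ r, P j t r := by
  rw [Finset.prod_univ_sum, Fintype.piFinset_univ]
  refine Finset.sum_congr rfl fun s _ => ?_
  exact integral_fintype_prod_volume_eq_prod (fun j => P j (s j))

theorem integrable_prod' {N : ℕ} {P : Fin N → R3 → ℂ} (hP : ∀ j, Integrable (P j)) :
    Integrable (fun x : Conf N => ∏ j, P j (x j)) :=
  Integrable.fintype_prod (𝕜 := ℂ) (f := P) (μ := fun _ : Fin N => (volume : Measure R3)) hP

/-- off-diagonal pairs of permutations do not contribute. -/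
theorem prod_delta {N : ℕ} (D : Fin N → Fin N → ℂ) (i : Fin N) (σ τ : Equiv.Perm (Fin N))
    (h : σ ≠ τ) : ∏ j, (if j = i then D (σ j) (τ j) else (if σ j = τ j then (1 : ℂ) else 0)) = 0 := by
  classical
  have : ∃ j, j ≠ i ∧ σ j ≠ τ j := by
    by_contra hno
    push Not at hno
    apply h
    have hi : σ i = τ i := by
      -- both are bijections agreeing off `i`
      obtain ⟨j, hj⟩ := τ.surjective (σ i)
      by_cases hji : j = i
      · rw [← hj, hji]
      · have := hno j hji
        rw [hj] at this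
        exact absurd (σ.injective this) hji
    ext j
    by_cases hji : j = i
    · rw [hji, hi]
    · rw [hno j hji]
  obtain ⟨j, hji, hj⟩ := this
  apply Finset.prod_eq_zero (Finset.mem_univ j)
  simp [hji, hj]

theorem prod_diag {N : ℕ} (D : Fin N → Fin N → ℂ) (i : Fin N) (σ : Equiv.Perm (Fin N)) :
    ∏ j, (if j = i then D (σ j) (σ j) else (if σ j = σ j then (1 : ℂ) else 0)) = D (σ i) (σ i) := by
  classical
  rw [Finset.prod_eq_single i]
  · simp
  · intro j _ hj
    simp [hj]
  · simp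

theorem sign_sq {N : ℕ} (σ : Equiv.Perm (Fin N)) :
    ((Equiv.Perm.sign σ : ℤ) : ℂ) * ((Equiv.Perm.sign σ : ℤ) : ℂ) = 1 := by
  rcases Int.units_eq_one_or (Equiv.Perm.sign σ) with h | h <;> simp [h]

theorem slater_core {N : ℕ} (pr ρ : Fin N → Fin N → Fin 2 → R3 → ℂ)
    (hpr : ∀ a b t, Integrable (pr a b t))
    (hG : ∀ a b, ∑ t, ∫ r, pr a b t r = if a = b then 1 else 0)
    (hρ : ∀ a b t, Integrable (ρ a b t)) :
    ∑ i, ∑ s : Fin N → Fin 2, ∫ x : Conf N, ∑ σ : Equiv.Perm (Fin N), ∑ τ : Equiv.Perm (Fin N),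
      (((Equiv.Perm.sign σ : ℤ) : ℂ) * ((Equiv.Perm.sign τ : ℤ) : ℂ)) *
        ∏ j, (if j = i then ρ (σ j) (τ j) else pr (σ j) (τ j)) (s j) (x j) =
      (N.factorial : ℂ) * ∑ l, ∑ t, ∫ r, ρ l l t r := by
  classical
  have hint : ∀ (i : Fin N) (s : Fin N → Fin 2) (σ τ : Equiv.Perm (Fin N)),
      Integrable (fun x : Conf N => (((Equiv.Perm.sign σ : ℤ) : ℂ) * ((Equiv.Perm.sign τ : ℤ) : ℂ)) *
        ∏ j, (if j = i then ρ (σ j) (τ j) else pr (σ j) (τ j)) (s j) (x j)) := by
    intro i s σ τ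
    refine Integrable.const_mul (integrable_prod' (P := fun j =>
      (if j = i then ρ (σ j) (τ j) else pr (σ j) (τ j)) (s j)) fun j => ?_) _
    by_cases h : j = i
    · simpa [h] using hρ (σ i) (τ i) (s i)
    · simpa [h] using hpr (σ j) (τ j) (s j)
  have h1 : ∀ (i : Fin N), ∑ s : Fin N → Fin 2, ∫ x : Conf N, ∑ σ : Equiv.Perm (Fin N),
      ∑ τ : Equiv.Perm (Fin N), (((Equiv.Perm.sign σ : ℤ) : ℂ) * ((Equiv.Perm.sign τ : ℤ) : ℂ)) *
        ∏ j, (if j = i then ρ (σ j) (τ j) else pr (σ j) (τ j)) (s j) (x j) =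
      ∑ σ : Equiv.Perm (Fin N), ∑ t, ∫ r, ρ (σ i) (σ i) t r := by
    intro i
    have h2 : ∀ s : Fin N → Fin 2, ∫ x : Conf N, ∑ σ : Equiv.Perm (Fin N),
        ∑ τ : Equiv.Perm (Fin N), (((Equiv.Perm.sign σ : ℤ) : ℂ) * ((Equiv.Perm.sign τ : ℤ) : ℂ)) *
        ∏ j, (if j = i then ρ (σ j) (τ j) else pr (σ j) (τ j)) (s j) (x j) =
        ∑ σ : Equiv.Perm (Fin N), ∑ τ : Equiv.Perm (Fin N),
          (((Equiv.Perm.sign σ : ℤ) : ℂ) * ((Equiv.Perm.sign τ : ℤ) : ℂ)) * ∫ x : Conf N,
        ∏ j, (if j = i then ρ (σ j) (τ j) else pr (σ j) (τ j)) (s j) (x j) := by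
      intro s
      rw [integral_finsetSum _ fun σ _ => integrable_finsetSum _ fun τ _ => hint i s σ τ]
      refine Finset.sum_congr rfl fun σ _ => ?_
      rw [integral_finsetSum _ fun τ _ => hint i s σ τ]
      refine Finset.sum_congr rfl fun τ _ => ?_
      rw [integral_const_mul]
    simp only [h2]
    rw [Finset.sum_comm]
    refine Finset.sum_congr rfl fun σ _ => ?_
    rw [Finset.sum_comm]
    have h3 : ∀ τ : Equiv.Perm (Fin N), ∑ s : Fin N → Fin 2,
        (((Equiv.Perm.sign σ : ℤ) : ℂ) * ((Equiv.Perm.sign τ : ℤ) : ℂ)) * ∫ x : Conf N,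
        ∏ j, (if j = i then ρ (σ j) (τ j) else pr (σ j) (τ j)) (s j) (x j) =
        if σ = τ then ∑ t, ∫ r, ρ (σ i) (σ i) t r else 0 := by
      intro τ
      rw [← Finset.mul_sum,
        sum_integral_prod (fun j => if j = i then ρ (σ j) (τ j) else pr (σ j) (τ j))]
      have h4 : ∀ j, ∑ t, ∫ r, (if j = i then ρ (σ j) (τ j) else pr (σ j) (τ j)) t r =
          if j = i then (∑ t, ∫ r, ρ (σ j) (τ j) t r) else (if σ j = τ j then (1 : ℂ) else 0) := by
        intro j
        by_cases hj : j = i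
        · simp [hj]
        · simp only [hj, if_false]
          exact hG _ _
      simp only [h4]
      by_cases hστ : σ = τ
      · subst hστ
        rw [if_pos rfl, sign_sq, one_mul]
        exact prod_diag (fun a b => ∑ t, ∫ r, ρ a b t r) i σ
      · rw [if_neg hστ, prod_delta (fun a b => ∑ t, ∫ r, ρ a b t r) i σ τ hστ, mul_zero]
    simp only [h3, Finset.sum_ite_eq, Finset.mem_univ, if_true]
  simp only [h1]
  rw [Finset.sum_comm]
  have h5 : ∀ σ : Equiv.Perm (Fin N), ∑ i, ∑ t, ∫ r, ρ (σ i) (σ i) t r = ∑ l, ∑ t, ∫ r, ρ l l t r :=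
    fun σ => Equiv.sum_comp σ (fun l => ∑ t, ∫ r, ρ l l t r)
  simp only [h5, Finset.sum_const, Finset.card_univ, Fintype.card_perm, Fintype.card_fin,
    nsmul_eq_mul]

/-! ### Slater determinants -/

/-- `N` orthonormal spin orbitals of finite kinetic energy. -/
structure SO (N : ℕ) where
  f : Fin N → Fin 2 → R3 → ℂ
  g : Fin N → Fin 2 → Fin 3 → R3 → ℂ
  fm : ∀ a t, MemLp (f a t) 2 volume
  gm : ∀ a t k, MemLp (g a t k) 2 volume
  wd : ∀ a t k, IsWD volume (e3 k) (f a t) (g a t k)
  orth : ∀ a b, ∑ t, ∫ r, conj (f a t r) * f b t r = if a = b then 1 else 0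

/-- mixed determinant: the `i`-th factor is taken from `A`. -/
def mdet {N : ℕ} (f A : Fin N → Fin 2 → R3 → ℂ) (i : Fin N) (s : Fin N → Fin 2) (x : Conf N) : ℂ :=
  ∑ σ : Equiv.Perm (Fin N), ((Equiv.Perm.sign σ : ℤ) : ℂ) *
    ∏ j, (if j = i then A (σ j) else f (σ j)) (s j) (x j)

theorem conj_mdet_mul {N : ℕ} (f A B : Fin N → Fin 2 → R3 → ℂ) (i : Fin N) (s : Fin N → Fin 2)
    (x : Conf N) : conj (mdet f A i s x) * mdet f B i s x =
      ∑ σ : Equiv.Perm (Fin N), ∑ τ : Equiv.Perm (Fin N),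
      (((Equiv.Perm.sign σ : ℤ) : ℂ) * ((Equiv.Perm.sign τ : ℤ) : ℂ)) *
        ∏ j, (if j = i then (fun a b t r => conj (A a t r) * B b t r) (σ j) (τ j)
          else (fun a b t r => conj (f a t r) * f b t r) (σ j) (τ j)) (s j) (x j) := by
  unfold mdet
  rw [map_sum, Finset.sum_mul_sum]
  refine Finset.sum_congr rfl fun σ _ => Finset.sum_congr rfl fun τ _ => ?_
  rw [map_mul, map_prod, mul_mul_mul_comm, ← Finset.prod_mul_distrib]
  congr 1
  · congr 1
    simp
  · refine Finset.prod_congr rfl fun j _ => ?_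
    by_cases h : j = i
    · simp [h]
    · simp [h]

theorem mdet_form {N : ℕ} (w : SO N) (A B : Fin N → Fin 2 → R3 → ℂ)
    (h : ∀ a b t, Integrable (fun r => conj (A a t r) * B b t r)) :
    ∑ i, ∑ s : Fin N → Fin 2, ∫ x : Conf N, conj (mdet w.f A i s x) * mdet w.f B i s x =
      (N.factorial : ℂ) * ∑ l, ∑ t, ∫ r, conj (A l t r) * B l t r := by
  simp only [conj_mdet_mul]
  refine slater_core (fun a b t r => conj (w.f a t r) * w.f b t r)
    (fun a b t r => conj (A a t r) * B b t r) (fun a b t => ?_) w.orth h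
  have h1 : MemLp (fun r => conj (w.f a t r)) 2 volume :=
    (w.fm a t).of_le (Complex.continuous_conj.comp_aestronglyMeasurable (w.fm a t).1)
      (ae_of_all _ fun x => by simp)
  exact h1.integrable_mul (w.fm b t)

theorem mdet_self {N : ℕ} (f : Fin N → Fin 2 → R3 → ℂ) (i : Fin N) (s : Fin N → Fin 2)
    (x : Conf N) : mdet f f i s x = ∑ σ : Equiv.Perm (Fin N), ((Equiv.Perm.sign σ : ℤ) : ℂ) *
      tens (fun j => f (σ j) (s j)) x := by
  unfold mdet tens
  simp

theorem mdet_update {N : ℕ} (f A : Fin N → Fin 2 → R3 → ℂ) (i : Fin N) (s : Fin N → Fin 2)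
    (x : Conf N) : mdet f A i s x = ∑ σ : Equiv.Perm (Fin N), ((Equiv.Perm.sign σ : ℤ) : ℂ) *
      tens (Function.update (fun j => f (σ j) (s j)) i (A (σ i) (s i))) x := by
  unfold mdet tens
  refine Finset.sum_congr rfl fun σ _ => ?_
  congr 1
  refine Finset.prod_congr rfl fun j _ => ?_
  by_cases h : j = i
  · subst h; simp
  · simp [h]

theorem isWD_sum {n : ℕ} {α : Type*} (S : Finset α) {v : Conf n} {f g : α → Conf n → ℂ}
    (hf : ∀ a ∈ S, MemLp (f a) 2 volume) (hg : ∀ a ∈ S, MemLp (g a) 2 volume)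
    (h : ∀ a ∈ S, IsWD volume v (f a) (g a)) :
    IsWD volume v (fun x => ∑ a ∈ S, f a x) (fun x => ∑ a ∈ S, g a x) := by
  classical
  intro φ hφ
  simp only [Finset.smul_sum]
  rw [integral_finsetSum _ fun a ha => (hφ.fderiv v).integrable_smul ((hf a ha).locallyIntegrable (by norm_num)),
    integral_finsetSum _ fun a ha => hφ.integrable_smul ((hg a ha).locallyIntegrable (by norm_num)),
    ← Finset.sum_neg_distrib]
  exact Finset.sum_congr rfl fun a ha => h a ha φ hφ

variable {n : ℕ}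

/-- normalisation constant -/
def cS (N : ℕ) : ℝ := 1 / Real.sqrt (N.factorial : ℝ)

theorem cS_sq (N : ℕ) : cS N ^ 2 * (N.factorial : ℝ) = 1 := by
  have h : (0 : ℝ) < (N.factorial : ℝ) := by exact_mod_cast N.factorial_pos
  unfold cS
  rw [div_pow, one_pow, Real.sq_sqrt h.le]
  field_simp

theorem memLp_mdet {N : ℕ} {f A : Fin N → Fin 2 → R3 → ℂ} (hf : ∀ a t, MemLp (f a t) 2 volume)
    (hA : ∀ a t, MemLp (A a t) 2 volume) (i : Fin N) (s : Fin N → Fin 2) :
    MemLp (fun x => (cS N : ℂ) * mdet f A i s x) 2 volume := by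
  simp only [mdet_update]
  refine MemLp.const_mul ?_ _
  refine memLp_finsetSum _ fun σ _ => MemLp.const_mul (memLp_tens fun j => ?_) _
  by_cases h : j = i
  · subst h; simpa using hA _ _
  · simpa [h] using hf _ _

/-- the Slater determinant of `n + 1` orthonormal spin orbitals -/
def slater (w : SO (n + 1)) : ElectronState (n + 1) where
  amp s x := (cS (n + 1) : ℂ) * mdet w.f w.f 0 s x
  grad s i k x := (cS (n + 1) : ℂ) * mdet w.f (fun a t => w.g a t k) i s x
  amp_memLp s := memLp_mdet w.fm w.fm 0 s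
  grad_memLp s i k := memLp_mdet w.fm (fun a t => w.gm a t k) i s
  grad_weak s i k := by
    rw [isWeakDeriv_iff]
    simp only [mdet_self, mdet_update w.f (fun a t => w.g a t k)]
    refine IsWD.const_smul (𝕜 := ℂ) (F := ℂ) ?_ (cS (n + 1) : ℂ)
    refine isWD_sum _ (fun σ _ => (memLp_tens fun j => w.fm _ _).const_mul _) (fun σ _ =>
      MemLp.const_mul (memLp_tens fun j => ?_) _) fun σ _ => ?_
    · by_cases h : j = i
      · subst h; simpa using w.gm _ _ _
      · simpa [h] using w.fm _ _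
    · refine IsWD.const_smul (𝕜 := ℂ) (F := ℂ) ?_ ((Equiv.Perm.sign σ : ℤ) : ℂ)
      exact isWD_tens (fun j => w.fm _ _) (w.gm _ _ _) (w.wd _ _ _)
  antisymm τ s := by
    rw [AEConf_iff]
    refine ae_of_all _ fun x => ?_
    simp only [mdet_self, tens, Function.comp_apply]
    rw [mul_left_comm]
    congr 1
    rw [Finset.mul_sum]
    refine (Equiv.sum_comp (Equiv.mulRight τ) (fun σ : Equiv.Perm (Fin (n + 1)) =>
      ((Equiv.Perm.sign σ : ℤ) : ℂ) * ∏ j, w.f (σ j) (s (τ j)) (x (τ j)))).symm.trans ?_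
    refine Finset.sum_congr rfl fun σ _ => ?_
    have h1 : ∏ j, w.f ((Equiv.mulRight τ σ) j) (s (τ j)) (x (τ j)) = ∏ j, w.f (σ j) (s j) (x j) := by
      rw [← Equiv.prod_comp τ (fun j => w.f (σ j) (s j) (x j))]
      rfl
    rw [h1]
    simp only [Equiv.coe_mulRight, Equiv.Perm.sign_mul, Units.val_mul, Int.cast_mul]
    ring

theorem slater_amp (w : SO (n + 1)) (i : Fin (n + 1)) (s : Fin (n + 1) → Fin 2) (x : Conf (n + 1)) :
    (slater w).amp s x = (cS (n + 1) : ℂ) * mdet w.f w.f i s x := by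
  show (cS (n + 1) : ℂ) * mdet w.f w.f 0 s x = _
  rw [mdet_self, mdet_self]

theorem norm_sq_eq_conj (z : ℂ) : ((‖z‖ ^ 2 : ℝ) : ℂ) = conj z * z := by
  rw [← Complex.normSq_eq_norm_sq, Complex.normSq_eq_conj_mul_self]

theorem memLp_conj' {N : ℕ} {f : Conf N → ℂ} (h : MemLp f 2 volume) :
    MemLp (fun x => conj (f x)) 2 volume :=
  h.of_le (Complex.continuous_conj.comp_aestronglyMeasurable h.1) (ae_of_all _ fun x => by simp)

theorem memLp_conj3 {f : R3 → ℂ} (h : MemLp f 2 volume) :
    MemLp (fun x => conj (f x)) 2 volume :=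
  h.of_le (Complex.continuous_conj.comp_aestronglyMeasurable h.1) (ae_of_all _ fun x => by simp)

theorem slater_normSq (w : SO (n + 1)) : normSq (slater w) = 1 := by
  have h := mdet_form w w.f w.f (fun a b t => (memLp_conj3 (w.fm a t)).integrable_mul (w.fm b t))
  have h1 : ∀ l, ∑ t, ∫ r, conj (w.f l t r) * w.f l t r = 1 := fun l => by
    rw [w.orth]; simp
  simp only [h1, Finset.sum_const, Finset.card_univ, Fintype.card_fin, nsmul_eq_mul, mul_one] at h
  have h2 : ∀ i : Fin (n + 1), ∑ s : Fin (n + 1) → Fin 2,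
      ∫ x : Conf (n + 1), conj (mdet w.f w.f i s x) * mdet w.f w.f i s x =
      ∑ s : Fin (n + 1) → Fin 2, ∫ x : Conf (n + 1), conj (mdet w.f w.f 0 s x) * mdet w.f w.f 0 s x := by
    intro i
    simp only [mdet_self]
  simp only [h2, Finset.sum_const, Finset.card_univ, Fintype.card_fin, nsmul_eq_mul] at h
  have hn : ((n + 1 : ℕ) : ℂ) ≠ 0 := by exact_mod_cast Nat.succ_ne_zero n
  have h3 : ∑ s : Fin (n + 1) → Fin 2, ∫ x : Conf (n + 1), conj (mdet w.f w.f 0 s x) * mdet w.f w.f 0 s x
      = ((n + 1).factorial : ℂ) := by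
    have := h
    rw [mul_comm (((n + 1).factorial : ℕ) : ℂ)] at this
    exact mul_left_cancel₀ hn this
  have h4 : ((normSq (slater w) : ℝ) : ℂ) = 1 := by
    unfold normSq
    simp only [intR_eq]
    rw [Complex.ofReal_sum]
    have h5 : ∀ s : Fin (n + 1) → Fin 2, ((∫ x, ‖(slater w).amp s x‖ ^ 2 : ℝ) : ℂ) =
        (cS (n + 1) : ℂ) ^ 2 * ∫ x : Conf (n + 1), conj (mdet w.f w.f 0 s x) * mdet w.f w.f 0 s x := by
      intro s
      rw [← integral_complex_ofReal, ← integral_const_mul]
      refine integral_congr_ae (ae_of_all _ fun x => ?_)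
      simp only [norm_sq_eq_conj, slater, map_mul, Complex.conj_ofReal]
      ring
    simp only [h5, ← Finset.mul_sum, h3]
    have := cS_sq (n + 1)
    exact_mod_cast this
  exact_mod_cast h4

/-- kinetic energy of a Slater determinant. -/
theorem slater_kin (w : SO (n + 1)) :
    ∑ s, ∑ i, ∑ k, intR (fun x => ‖(slater w).grad s i k x‖ ^ 2) =
      ∑ l, ∑ t, ∑ k, ∫ r, ‖w.g l t k r‖ ^ 2 := by
  have key : ∀ k : Fin 3, ∑ i, ∑ s, intR (fun x => ‖(slater w).grad s i k x‖ ^ 2) =
      ∑ l, ∑ t, ∫ r, ‖w.g l t k r‖ ^ 2 := by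
    intro k
    have h := mdet_form w (fun a t => w.g a t k) (fun a t => w.g a t k)
      (fun a b t => (memLp_conj3 (w.gm a t k)).integrable_mul (w.gm b t k))
    have h4 : ((∑ i, ∑ s, intR (fun x => ‖(slater w).grad s i k x‖ ^ 2) : ℝ) : ℂ) =
        ((∑ l, ∑ t, ∫ r, ‖w.g l t k r‖ ^ 2 : ℝ) : ℂ) := by
      simp only [intR_eq]
      rw [Complex.ofReal_sum, Complex.ofReal_sum]
      have h5 : ∀ (i : Fin (n + 1)) (s : Fin (n + 1) → Fin 2),
          ((∫ x, ‖(slater w).grad s i k x‖ ^ 2 : ℝ) : ℂ) =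
          (cS (n + 1) : ℂ) ^ 2 * ∫ x : Conf (n + 1), conj (mdet w.f (fun a t => w.g a t k) i s x) *
            mdet w.f (fun a t => w.g a t k) i s x := by
        intro i s
        rw [← integral_complex_ofReal, ← integral_const_mul]
        refine integral_congr_ae (ae_of_all _ fun x => ?_)
        simp only [norm_sq_eq_conj, slater, map_mul, Complex.conj_ofReal]
        ring
      simp only [Complex.ofReal_sum, h5, ← Finset.mul_sum]
      rw [h, ← mul_assoc]
      have hc : (cS (n + 1) : ℂ) ^ 2 * ((n + 1).factorial : ℂ) = 1 := by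
        exact_mod_cast cS_sq (n + 1)
      rw [hc, one_mul]
      refine Finset.sum_congr rfl fun l _ => Finset.sum_congr rfl fun t _ => ?_
      rw [← integral_complex_ofReal]
      refine integral_congr_ae (ae_of_all _ fun x => ?_)
      simp only [norm_sq_eq_conj]
    exact_mod_cast h4
  have e1 : ∑ s, ∑ i, ∑ k, intR (fun x => ‖(slater w).grad s i k x‖ ^ 2) =
      ∑ k, ∑ i, ∑ s, intR (fun x => ‖(slater w).grad s i k x‖ ^ 2) := by
    rw [Finset.sum_comm]
    simp only [Finset.sum_comm (s := (Finset.univ : Finset (Fin (n + 1) → Fin 2)))]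
    rw [Finset.sum_comm]
  rw [e1]
  simp only [key]
  rw [Finset.sum_comm]
  refine Finset.sum_congr rfl fun l _ => ?_
  rw [Finset.sum_comm]

/-- potential energy of a Slater determinant. -/
theorem slater_pot (w : SO (n + 1)) (v : R3 → ℝ)
    (hv : ∀ a b t, Integrable (fun r => (v r : ℂ) * (conj (w.f a t r) * w.f b t r))) :
    ∑ s, intR (fun x => sumPotential v x * ‖(slater w).amp s x‖ ^ 2) =
      ∑ l, ∑ t, ∫ r, v r * ‖w.f l t r‖ ^ 2 := by
  classical
  have hv' : ∀ a b t, Integrable (fun r => conj (w.f a t r) * ((v r : ℂ) * w.f b t r)) := by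
    intro a b t
    refine (hv a b t).congr (ae_of_all _ fun r => ?_)
    simp only; ring
  have h := mdet_form w w.f (fun a t r => (v r : ℂ) * w.f a t r) hv'
  -- the mixed determinant carries the factor `v (x i)`
  have hm : ∀ (i : Fin (n + 1)) (s : Fin (n + 1) → Fin 2) (x : Conf (n + 1)),
      mdet w.f (fun a t r => (v r : ℂ) * w.f a t r) i s x = (v (x i) : ℂ) * mdet w.f w.f i s x := by
    intro i s x
    rw [mdet_update, mdet_self, Finset.mul_sum]
    refine Finset.sum_congr rfl fun σ _ => ?_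
    rw [mul_left_comm]
    congr 1
    unfold tens
    rw [Finset.prod_eq_mul_prod_sdiff_singleton_of_mem (Finset.mem_univ i),
      Finset.prod_eq_mul_prod_sdiff_singleton_of_mem (Finset.mem_univ i) (fun j => w.f (σ j) (s j) (x j)), ← mul_assoc]
    congr 1
    · simp
    · refine Finset.prod_congr rfl fun j hj => ?_
      have : j ≠ i := by simpa using hj
      simp [this]
  have hint : ∀ (i : Fin (n + 1)) (s : Fin (n + 1) → Fin 2),
      Integrable (fun x : Conf (n + 1) => v (x i) * ‖(slater w).amp s x‖ ^ 2) := by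
    intro i s
    have h1 : Integrable (fun x : Conf (n + 1) => conj (mdet w.f w.f i s x) *
        mdet w.f (fun a t r => (v r : ℂ) * w.f a t r) i s x) := by
      simp only [conj_mdet_mul]
      refine integrable_finsetSum _ fun σ _ => integrable_finsetSum _ fun τ _ => ?_
      refine Integrable.const_mul (integrable_prod' (P := fun j =>
        (if j = i then (fun a b t r => conj (w.f a t r) * ((v r : ℂ) * w.f b t r)) (σ j) (τ j)
          else (fun a b t r => conj (w.f a t r) * w.f b t r) (σ j) (τ j)) (s j)) fun j => ?_) _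
      by_cases hj : j = i
      · simpa [hj] using hv' (σ i) (τ i) (s i)
      · have h7 : Integrable (fun r => conj (w.f (σ j) (s j) r) * w.f (τ j) (s j) r) :=
          (memLp_conj3 (w.fm (σ j) (s j))).integrable_mul (w.fm (τ j) (s j))
        simpa [hj] using h7
    have h2 := (h1.const_mul ((cS (n + 1) : ℂ) ^ 2)).re
    refine h2.congr (ae_of_all _ fun x => ?_)
    simp only
    have h3 : (cS (n + 1) : ℂ) ^ 2 * (conj (mdet w.f w.f i s x) *
        mdet w.f (fun a t r => (v r : ℂ) * w.f a t r) i s x) =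
        ((v (x i) * ‖(slater w).amp s x‖ ^ 2 : ℝ) : ℂ) := by
      rw [Complex.ofReal_mul, norm_sq_eq_conj, slater_amp w i, hm]
      simp only [map_mul, Complex.conj_ofReal]
      ring
    rw [h3]
    exact Complex.ofReal_re _
  have e1 : ∀ s : Fin (n + 1) → Fin 2, intR (fun x => sumPotential v x * ‖(slater w).amp s x‖ ^ 2) =
      ∑ i, ∫ x, v (x i) * ‖(slater w).amp s x‖ ^ 2 := by
    intro s
    rw [intR_eq]
    unfold sumPotential
    simp only [Finset.sum_mul]
    rw [integral_finsetSum _ fun i _ => hint i s]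
  have h4 : ((∑ s, intR (fun x => sumPotential v x * ‖(slater w).amp s x‖ ^ 2) : ℝ) : ℂ) =
      ((∑ l, ∑ t, ∫ r, v r * ‖w.f l t r‖ ^ 2 : ℝ) : ℂ) := by
    simp only [e1]
    rw [Finset.sum_comm]
    simp only [Complex.ofReal_sum]
    have h5 : ∀ (i : Fin (n + 1)) (s : Fin (n + 1) → Fin 2),
        ((∫ x, v (x i) * ‖(slater w).amp s x‖ ^ 2 : ℝ) : ℂ) =
        (cS (n + 1) : ℂ) ^ 2 * ∫ x : Conf (n + 1), conj (mdet w.f w.f i s x) *
          mdet w.f (fun a t r => (v r : ℂ) * w.f a t r) i s x := by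
      intro i s
      rw [← integral_complex_ofReal, ← integral_const_mul]
      refine integral_congr_ae (ae_of_all _ fun x => ?_)
      simp only
      rw [Complex.ofReal_mul, norm_sq_eq_conj, slater_amp w i, hm]
      simp only [map_mul, Complex.conj_ofReal]
      ring
    simp only [h5, ← Finset.mul_sum]
    rw [h, ← mul_assoc]
    have hc : (cS (n + 1) : ℂ) ^ 2 * ((n + 1).factorial : ℂ) = 1 := by
      exact_mod_cast cS_sq (n + 1)
    rw [hc, one_mul]
    refine Finset.sum_congr rfl fun l _ => Finset.sum_congr rfl fun t _ => ?_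
    rw [← integral_complex_ofReal]
    refine integral_congr_ae (ae_of_all _ fun x => ?_)
    simp only
    rw [Complex.ofReal_mul, norm_sq_eq_conj]
    ring
  exact_mod_cast h4

/-- energy of a Slater determinant. -/
theorem slater_energy (w : SO (n + 1)) (v : R3 → ℝ)
    (hv : ∀ a b t, Integrable (fun r => (v r : ℂ) * (conj (w.f a t r) * w.f b t r))) :
    energy (sumPotential v) (slater w) =
      (1 / 2) * (∑ l, ∑ t, ∑ k, ∫ r, ‖w.g l t k r‖ ^ 2) + ∑ l, ∑ t, ∫ r, v r * ‖w.f l t r‖ ^ 2 := by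
  unfold energy
  rw [slater_kin, slater_pot w v hv]

end

end Vale.Agent.P363.H574
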