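import Vale.Agent.P363.H574.Greedy
import Vale.Agent.P363.H574.Defs
import Vale.Agent.P363.R.Sob.S01
import Vale.Agent.P363.H700.Form1
import Vale.Agent.P363.H95.SignMin

/-! The real Hilbert space `H¹(ℝ³)` and the quadratic form of `-½Δ + v` on it. -/

namespace Vale.Agent.P363.H574

open MeasureTheory Filter Topology
open Vale.Agent.P363.Stmt
open Vale.Agent.P363.R.Sob
open Vale.Agent.P363.R.KS (H1 qf KSData)
open scoped ContDiff ENNReal

noncomputable section

/-- real `L²(ℝ³)` -/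
abbrev LR : Type := Lp ℝ 2 (volume : Measure R3)

/-- function with three derivatives -/
abbrev AmbR : Type := PiLp 2 (fun _ : Option (Fin 3) => LR)

/-- coordinate direction -/
abbrev e3' (k : Fin 3) : R3 := EuclideanSpace.single k (1 : ℝ)

theorem locInt (f : LR) : LocallyIntegrable f (volume : Measure R3) :=
  (Lp.memLp f).locallyIntegrable (by norm_num)

theorem test_memLp_real {φ : R3 → ℝ} (h : Test φ) : MemLp φ 2 (volume : Measure R3) :=
  h.continuous.memLp_of_hasCompactSupport h.hasCompactSupport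

theorem inner_toLp {u w : R3 → ℝ} (hu : MemLp u 2 (volume : Measure R3))
    (hw : MemLp w 2 (volume : Measure R3)) :
    (inner ℝ (hu.toLp u) (hw.toLp w) : ℝ) = ∫ x, u x * w x := by
  rw [L2.inner_def]
  refine integral_congr_ae ?_
  filter_upwards [hu.coeFn_toLp, hw.coeFn_toLp] with x h1 h2
  rw [h1, h2]
  simp [mul_comm]

theorem inner_eq (u w : LR) : (inner ℝ u w : ℝ) = ∫ x, u x * w x := by
  rw [L2.inner_def]
  refine integral_congr_ae (ae_of_all _ fun x => ?_)
  simp [mul_comm]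

theorem norm_sq_eq' (u : LR) : ‖u‖ ^ 2 = ∫ x, u x ^ 2 := by
  rw [← real_inner_self_eq_norm_sq, inner_eq]
  refine integral_congr_ae (ae_of_all _ fun x => ?_)
  simp only; ring

theorem continuous_integral_test_real {φ : R3 → ℝ} (h : Test φ) :
    Continuous fun f : LR => ∫ x, φ x • f x := by
  have : (fun f : LR => ∫ x, φ x • f x) =
      fun f : LR => inner ℝ ((test_memLp_real h).toLp φ) f := by
    funext f
    rw [inner_eq]
    refine integral_congr_ae ?_
    filter_upwards [(test_memLp_real h).coeFn_toLp] with x hx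
    rw [hx, smul_eq_mul]
  rw [this]
  exact continuous_const.inner continuous_id

theorem isClosed_isWD_real (v : R3) :
    IsClosed {p : LR × LR | IsWD (volume : Measure R3) v p.1 p.2} := by
  have : {p : LR × LR | IsWD (volume : Measure R3) v p.1 p.2} =
      ⋂ (φ : R3 → ℝ) (_ : Test φ), {p : LR × LR |
        ∫ x, (fderiv ℝ φ x v) • p.1 x = - ∫ x, φ x • p.2 x} := by
    ext p
    simp [IsWD]
  rw [this]
  refine isClosed_iInter fun φ => isClosed_iInter fun hφ => ?_
  exact isClosed_eq ((continuous_integral_test_real (hφ.fderiv v)).comp continuous_fst)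
    ((continuous_integral_test_real hφ).comp continuous_snd).neg

/-- `H¹(ℝ³)` as a subspace. -/
def VSub : Submodule ℝ AmbR where
  carrier := {u | ∀ k, IsWD (volume : Measure R3) (R.KS.dir k) (u none) (u (some k))}
  add_mem' := by
    intro u v hu hv k
    refine ((hu k).add (hv k) (locInt _) (locInt _) (locInt _) (locInt _)).congr ?_ ?_
    · exact (Lp.coeFn_add _ _).symm
    · exact (Lp.coeFn_add _ _).symm
  zero_mem' := by
    intro k
    refine (isWD_zero (μ := (volume : Measure R3)) (v := R.KS.dir k) (F := ℝ)).congr ?_ ?_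
    · exact (Lp.coeFn_zero _ _ _).symm
    · exact (Lp.coeFn_zero _ _ _).symm
  smul_mem' := by
    intro c u hu k
    refine ((hu k).const_smul c).congr ?_ ?_
    · exact (Lp.coeFn_smul c (u none)).symm
    · exact (Lp.coeFn_smul c (u (some k))).symm

theorem isClosed_VSub : IsClosed (VSub : Set AmbR) := by
  have : (VSub : Set AmbR) = ⋂ k, {u : AmbR |
      IsWD (volume : Measure R3) (R.KS.dir k) (u none) (u (some k))} := by
    ext u; simp [VSub]
  rw [this]
  refine isClosed_iInter fun k => ?_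
  exact (isClosed_isWD_real (R.KS.dir k)).preimage
    (f := fun u : AmbR => (u none, u (some k))) (by fun_prop)

/-- `H¹(ℝ³)`. -/
abbrev V1 : Type := VSub

instance : CompleteSpace V1 := isClosed_VSub.completeSpace_coe

/-- embedding in `L²` -/
def J1 : V1 →L[ℝ] LR := (PiLp.proj 2 (fun _ : Option (Fin 3) => LR) none).comp VSub.subtypeL

/-- derivatives -/
def D1 (k : Fin 3) : V1 →L[ℝ] LR :=
  (PiLp.proj 2 (fun _ : Option (Fin 3) => LR) (some k)).comp VSub.subtypeL

theorem norm_V1_sq (u : V1) : ‖u‖ ^ 2 = ‖J1 u‖ ^ 2 + ∑ k, ‖D1 k u‖ ^ 2 := by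
  have h : ‖u‖ = ‖(u : AmbR)‖ := rfl
  rw [h, PiLp.norm_sq_eq_of_L2, Fintype.sum_option]
  rfl

/-- the function `x ↦ u x` is in `H¹` in the sense of `KS.H1`. -/
theorem H1_of (u : V1) : H1 (J1 u) (fun k => D1 k u) :=
  ⟨Lp.memLp _, fun _ => Lp.memLp _, fun k => u.2 k⟩

/-- from `KS.H1` to the Hilbert space -/
def toV {f : R3 → ℝ} {g : Fin 3 → R3 → ℝ} (h : H1 f g) : V1 :=
  ⟨WithLp.toLp 2 fun p => match p with
    | none => h.mem.toLp f
    | some k => (h.gmem k).toLp (g k), fun k =>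
      (h.wd k).congr h.mem.coeFn_toLp.symm (h.gmem k).coeFn_toLp.symm⟩

theorem J1_toV {f : R3 → ℝ} {g : Fin 3 → R3 → ℝ} (h : H1 f g) : J1 (toV h) = h.mem.toLp f := rfl

theorem D1_toV {f : R3 → ℝ} {g : Fin 3 → R3 → ℝ} (h : H1 f g) (k : Fin 3) :
    D1 k (toV h) = (h.gmem k).toLp (g k) := rfl

theorem J1_toV_ae {f : R3 → ℝ} {g : Fin 3 → R3 → ℝ} (h : H1 f g) :
    J1 (toV h) =ᵐ[volume] f := h.mem.coeFn_toLp

theorem D1_toV_ae {f : R3 → ℝ} {g : Fin 3 → R3 → ℝ} (h : H1 f g) (k : Fin 3) :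
    D1 k (toV h) =ᵐ[volume] g k := (h.gmem k).coeFn_toLp

theorem qf_congr {v : R3 → ℝ} {e : ℝ} {f f' h h' : R3 → ℝ} {g g' k k' : Fin 3 → R3 → ℝ}
    (h1 : f =ᵐ[volume] f') (h2 : ∀ i, g i =ᵐ[volume] g' i) (h3 : h =ᵐ[volume] h')
    (h4 : ∀ i, k i =ᵐ[volume] k' i) : qf v e f g h k = qf v e f' g' h' k' := by
  unfold qf
  congr 1
  · congr 1
    refine integral_congr_ae ?_
    have h2' := ae_all_iff.2 h2
    have h4' := ae_all_iff.2 h4
    filter_upwards [h2', h4'] with x a b
    exact Finset.sum_congr rfl fun i _ => by rw [a i, b i]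
  · refine integral_congr_ae ?_
    filter_upwards [h1, h3] with x a b
    rw [a, b]

theorem qf_zero_eq {v : R3 → ℝ} (hv : MemV v) {f h : R3 → ℝ} {g k : Fin 3 → R3 → ℝ}
    (hf : H1 f g) (hh : H1 h k) (e : ℝ) :
    qf v e f g h k = qf v 0 f g h k - e * ∫ x, f x * h x := by
  unfold qf
  have h1 : Integrable (fun x => f x * h x) := hf.mem.integrable_mul hh.mem
  have h0 := H95.integrable_form hv hf hh 0
  have e1 : ∀ x, (v x - e) * f x * h x = (v x - 0) * f x * h x - e * (f x * h x) := by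
    intro x; ring
  simp only [e1]
  rw [integral_sub h0 (h1.const_mul e), integral_const_mul]
  ring

/-- the kinetic form -/
def kinForm : V1 →L[ℝ] V1 →L[ℝ] ℝ :=
  ∑ k, ((innerSL ℝ : LR →L[ℝ] LR →L[ℝ] ℝ).bilinearComp (D1 k) (D1 k))

theorem kinForm_apply (u w : V1) : kinForm u w = ∑ k, inner ℝ (D1 k u) (D1 k w) := by
  unfold kinForm
  simp [ContinuousLinearMap.bilinearComp_apply]

/-! ### the potential part -/

section form

variable {v : R3 → ℝ} (hv : MemV v)
include hv

/-- bound of the potential form -/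
theorem pot_sq_le (ε : ℝ) (hε : 0 < ε) (u : V1) :
    ∫ x, |v x| * (J1 u x) ^ 2 ≤ ε * (∑ k, ‖D1 k u‖ ^ 2) + H700.formC hv hε * ‖J1 u‖ ^ 2 := by
  have h := (H700.H1.form_bound (H1_of u) hv hε).2
  simp only [norm_sq_eq']
  exact h

theorem pot_int (u w : V1) : Integrable (fun x => v x * J1 u x * J1 w x) :=
  H700.H1.integrable_mul (H1_of u) (H1_of w) hv

theorem pot_abs_int (u : V1) : Integrable (fun x => |v x| * (J1 u x) ^ 2) := by
  have h := (pot_int hv u u).norm
  refine h.congr (ae_of_all _ fun x => ?_)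
  simp only [Real.norm_eq_abs, abs_mul]
  rw [mul_assoc, abs_mul_abs_self]
  ring

/-- constant -/
def potC : ℝ := 1 + |H700.formC hv one_pos|

theorem potC_pos : 0 < potC hv := by unfold potC; positivity

theorem pot_sq_le' (u : V1) : ∫ x, |v x| * (J1 u x) ^ 2 ≤ potC hv * ‖u‖ ^ 2 := by
  refine (pot_sq_le hv 1 one_pos u).trans ?_
  rw [norm_V1_sq, one_mul]
  unfold potC
  have h1 : H700.formC hv one_pos ≤ |H700.formC hv one_pos| := le_abs_self _
  have h2 : 0 ≤ ∑ k, ‖D1 k u‖ ^ 2 := Finset.sum_nonneg fun k _ => sq_nonneg _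
  have h3 : 0 ≤ ‖J1 u‖ ^ 2 := sq_nonneg _
  have h4 : 0 ≤ |H700.formC hv one_pos| := abs_nonneg _
  nlinarith [mul_nonneg h4 h2, mul_le_mul_of_nonneg_right h1 h3]

theorem pot_bound (u w : V1) : |∫ x, v x * J1 u x * J1 w x| ≤ potC hv * ‖u‖ * ‖w‖ := by
  by_cases hu : ‖u‖ = 0
  · have : u = 0 := norm_eq_zero.mp hu
    subst this
    have h0 : (J1 (0 : V1) : R3 → ℝ) =ᵐ[volume] 0 := by
      rw [map_zero]; exact Lp.coeFn_zero _ _ _
    have : ∫ x, v x * J1 (0 : V1) x * J1 w x = 0 := by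
      rw [integral_eq_zero_of_ae]
      filter_upwards [h0] with x hx
      rw [hx]; simp
    rw [this]; simp
  by_cases hw : ‖w‖ = 0
  · have : w = 0 := norm_eq_zero.mp hw
    subst this
    have h0 : (J1 (0 : V1) : R3 → ℝ) =ᵐ[volume] 0 := by
      rw [map_zero]; exact Lp.coeFn_zero _ _ _
    have : ∫ x, v x * J1 u x * J1 (0 : V1) x = 0 := by
      rw [integral_eq_zero_of_ae]
      filter_upwards [h0] with x hx
      rw [hx]; simp
    rw [this]; simp
  have hup : 0 < ‖u‖ := lt_of_le_of_ne (norm_nonneg _) (Ne.symm hu)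
  have hwp : 0 < ‖w‖ := lt_of_le_of_ne (norm_nonneg _) (Ne.symm hw)
  set t : ℝ := ‖w‖ / ‖u‖ with ht
  have htp : 0 < t := div_pos hwp hup
  have h1 : |∫ x, v x * J1 u x * J1 w x| ≤
      ∫ x, (t / 2 * (|v x| * (J1 u x) ^ 2) + 1 / (2 * t) * (|v x| * (J1 w x) ^ 2)) := by
    refine (abs_integral_le_integral_abs).trans ?_
    refine integral_mono (pot_int hv u w).abs
      (((pot_abs_int hv u).const_mul _).add ((pot_abs_int hv w).const_mul _)) fun x => ?_
    beta_reduce
    rw [abs_mul, abs_mul]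
    have hv0 : 0 ≤ |v x| := abs_nonneg _
    have key : |J1 u x| * |J1 w x| ≤ t / 2 * (J1 u x) ^ 2 + 1 / (2 * t) * (J1 w x) ^ 2 := by
      have h2 : 0 ≤ (t * |J1 u x| - |J1 w x|) ^ 2 := sq_nonneg _
      have h3 : t / 2 * (J1 u x) ^ 2 + 1 / (2 * t) * (J1 w x) ^ 2 - |J1 u x| * |J1 w x| =
          (t * |J1 u x| - |J1 w x|) ^ 2 / (2 * t) := by
        rw [← sq_abs (J1 u x), ← sq_abs (J1 w x)]
        field_simp
        ring
      have h4 : 0 ≤ (t * |J1 u x| - |J1 w x|) ^ 2 / (2 * t) := by positivity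
      linarith
    calc |v x| * |J1 u x| * |J1 w x| = |v x| * (|J1 u x| * |J1 w x|) := by ring
      _ ≤ |v x| * (t / 2 * (J1 u x) ^ 2 + 1 / (2 * t) * (J1 w x) ^ 2) :=
        mul_le_mul_of_nonneg_left key hv0
      _ = _ := by ring
  rw [integral_add ((pot_abs_int hv u).const_mul _) ((pot_abs_int hv w).const_mul _),
    integral_const_mul, integral_const_mul] at h1
  have h2 := pot_sq_le' hv u
  have h3 := pot_sq_le' hv w
  have h4 : t / 2 * (∫ x, |v x| * (J1 u x) ^ 2) ≤ t / 2 * (potC hv * ‖u‖ ^ 2) :=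
    mul_le_mul_of_nonneg_left h2 (by positivity)
  have h5 : 1 / (2 * t) * (∫ x, |v x| * (J1 w x) ^ 2) ≤ 1 / (2 * t) * (potC hv * ‖w‖ ^ 2) :=
    mul_le_mul_of_nonneg_left h3 (by positivity)
  have h6 : t / 2 * (potC hv * ‖u‖ ^ 2) + 1 / (2 * t) * (potC hv * ‖w‖ ^ 2) =
      potC hv * ‖u‖ * ‖w‖ := by
    rw [ht]
    field_simp
    ring
  linarith

/-- the potential form -/
def potForm : V1 →L[ℝ] V1 →L[ℝ] ℝ :=
  LinearMap.mkContinuous₂
    (LinearMap.mk₂ ℝ (fun u w => ∫ x, v x * J1 u x * J1 w x)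
      (fun u u' w => by
        rw [← integral_add (pot_int hv u w) (pot_int hv u' w)]
        refine integral_congr_ae ?_
        filter_upwards [Lp.coeFn_add (J1 u) (J1 u')] with x hx
        rw [map_add, hx, Pi.add_apply]; ring)
      (fun c u w => by
        rw [smul_eq_mul, ← integral_const_mul]
        refine integral_congr_ae ?_
        filter_upwards [Lp.coeFn_smul c (J1 u)] with x hx
        rw [map_smul, hx, Pi.smul_apply, smul_eq_mul]; ring)
      (fun u w w' => by
        rw [← integral_add (pot_int hv u w) (pot_int hv u w')]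
        refine integral_congr_ae ?_
        filter_upwards [Lp.coeFn_add (J1 w) (J1 w')] with x hx
        rw [map_add, hx, Pi.add_apply]; ring)
      (fun c u w => by
        rw [smul_eq_mul, ← integral_const_mul]
        refine integral_congr_ae ?_
        filter_upwards [Lp.coeFn_smul c (J1 w)] with x hx
        rw [map_smul, hx, Pi.smul_apply, smul_eq_mul]; ring))
    (potC hv) fun u w => by
      rw [Real.norm_eq_abs]
      exact pot_bound hv u w

theorem potForm_apply (u w : V1) : potForm hv u w = ∫ x, v x * J1 u x * J1 w x := rfl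

/-- the form of `-½Δ + v` on `H¹(ℝ³)`. -/
def QV : QForm V1 LR where
  J := J1
  B := (1 / 2 : ℝ) • kinForm + potForm hv
  symm u w := by
    simp only [add_apply, smul_apply, kinForm_apply, potForm_apply]
    congr 1
    · congr 1
      exact Finset.sum_congr rfl fun k _ => real_inner_comm (D1 k w) (D1 k u)
    · refine integral_congr_ae (ae_of_all _ fun x => ?_)
      simp only; ring
  c := 1 / 4
  C := H700.formC hv (show (0 : ℝ) < 1 / 4 by norm_num) + 1 / 4
  c_pos := by norm_num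
  coer u := by
    simp only [add_apply, smul_apply, kinForm_apply, potForm_apply, smul_eq_mul]
    have h1 := pot_sq_le hv (1 / 4) (by norm_num) u
    have h2 : -(∫ x, |v x| * (J1 u x) ^ 2) ≤ ∫ x, v x * J1 u x * J1 u x := by
      rw [← integral_neg]
      refine integral_mono (pot_abs_int hv u).neg (pot_int hv u u) fun x => ?_
      have h3 : -|v x| ≤ v x := neg_abs_le _
      have h4 : 0 ≤ (J1 u x) ^ 2 := sq_nonneg _
      have h5 := mul_le_mul_of_nonneg_right h3 h4
      show -(|v x| * (J1 u x) ^ 2) ≤ v x * J1 u x * J1 u x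
      nlinarith
    have h3 : ∑ k, (inner ℝ (D1 k u) (D1 k u) : ℝ) = ∑ k, ‖D1 k u‖ ^ 2 :=
      Finset.sum_congr rfl fun k _ => real_inner_self_eq_norm_sq _
    rw [h3, norm_V1_sq]
    nlinarith

theorem QV_J : (QV hv).J = J1 := rfl

theorem QV_B (u w : V1) : (QV hv).B u w = qf v 0 (J1 u) (fun k => D1 k u) (J1 w) (fun k => D1 k w) := by
  have h0 : (QV hv).B u w = (1 / 2) * (∑ k, (inner ℝ (D1 k u) (D1 k w) : ℝ)) +
      ∫ x, v x * J1 u x * J1 w x := by
    rw [← kinForm_apply, ← potForm_apply hv]; rfl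
  rw [h0]
  unfold qf
  congr 1
  · congr 1
    have hi : ∀ k : Fin 3, Integrable (fun x => D1 k u x * D1 k w x) (volume : Measure R3) :=
      fun k => (Lp.memLp (D1 k u)).integrable_mul (Lp.memLp (D1 k w))
    rw [integral_finsetSum _ fun k _ => hi k]
    exact Finset.sum_congr rfl fun k _ => inner_eq _ _
  · refine integral_congr_ae (ae_of_all _ fun x => ?_)
    simp

theorem QV_B_toV {f h : R3 → ℝ} {g k : Fin 3 → R3 → ℝ} (hf : H1 f g) (hh : H1 h k) :
    (QV hv).B (toV hf) (toV hh) = qf v 0 f g h k := by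
  rw [QV_B]
  exact qf_congr (J1_toV_ae hf) (fun i => D1_toV_ae hf i) (J1_toV_ae hh) (fun i => D1_toV_ae hh i)

theorem QV_A (e : ℝ) (u w : V1) :
    (QV hv).A e u w = qf v e (J1 u) (fun k => D1 k u) (J1 w) (fun k => D1 k w) := by
  unfold QForm.A
  rw [QV_B, qf_zero_eq hv (H1_of u) (H1_of w) e, QV_J, inner_eq]

theorem QV_A_toV (e : ℝ) {f h : R3 → ℝ} {g k : Fin 3 → R3 → ℝ} (hf : H1 f g) (hh : H1 h k) :
    (QV hv).A e (toV hf) (toV hh) = qf v e f g h k := by
  rw [QV_A]
  exact qf_congr (J1_toV_ae hf) (fun i => D1_toV_ae hf i) (J1_toV_ae hh) (fun i => D1_toV_ae hh i)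

end form

end

end Vale.Agent.P363.H574
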