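import Vale.Agent.P363.H574.Defs

/-! Block B6: top-level statements (owner helper574; B6.2: helper95). -/

namespace Vale.Agent.P363.H574

open MeasureTheory Filter Topology
open Vale.Agent.P363.Stmt
open Vale.Agent.P363.R.Sob
open Vale.Agent.P363.R.KS (H1 qf KSData)
open scoped ContDiff ENNReal

noncomputable section

/-- B6-P1. A representable density has a natural family. -/
theorem exists_natFam {ρ : R3 → ℝ} (h : NonintEnsembleRepresentable 4 ρ) :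
    ∃ (v : R3 → ℝ) (E : ℝ) (ι : Type) (_ : Countable ι) (f : ι → R3 → ℝ)
      (g : ι → Fin 3 → R3 → ℝ), NatFam v ρ E f g := sorry

/-- B6.2 (owner helper95). A minimiser of the one-body form has a strict sign. -/
theorem sign_of_min {v : R3 → ℝ} (hv : MemV v) {e : ℝ}
    (hlow : ∀ f g, H1 f g → 0 ≤ qf v e f g f g) {f : R3 → ℝ} {g : Fin 3 → R3 → ℝ} (hf : H1 f g)
    (hne : ∫ x, f x ^ 2 ≠ 0) (h0 : qf v e f g f g = 0) :
    (∀ᵐ x, 0 < f x) ∨ (∀ᵐ x, f x < 0) := sorry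

/-- B6.5. Structure theorem.  `hclose`: no two orthonormal real functions are both doubly
occupied.  `w` is an arbitrary real `L²` function (to be taken as `-2s`); `a = γw - 2⟨φ,w⟩φ`. -/
theorem structure_main {v ρ : R3 → ℝ} {E : ℝ} {ι : Type} [Countable ι] {h : ι → R3 → ℝ}
    {g : ι → Fin 3 → R3 → ℝ} (N : NatFam v ρ E h g)
    (hclose : ∀ u₁ u₂ : R3 → ℝ, MemLp u₁ 2 (volume : Measure R3) →
      MemLp u₂ 2 (volume : Measure R3) → ∫ x, u₁ x ^ 2 = 1 → ∫ x, u₂ x ^ 2 = 1 →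
      ∫ x, u₁ x * u₂ x = 0 →
      ¬ (∑' j, (∫ x, u₁ x * h j x) ^ 2 = 2 ∧ ∑' j, (∫ x, u₂ x * h j x) ^ 2 = 2))
    (w : R3 → ℝ) (hw : MemLp w 2 (volume : Measure R3)) :
    ∃ (μ δ : ℝ) (φ a : R3 → ℝ) (gφ ga gs : Fin 3 → R3 → ℝ),
      KSData v μ δ φ a (fun x => Real.sqrt (ρ x)) gφ ga gs ∧
      ∫ x, φ x ^ 2 = 1 ∧
      (∀ u : R3 → ℝ, MemLp u 2 (volume : Measure R3) →
        HasSum (fun j => (∫ x, u x * h j x) * (∫ x, φ x * h j x)) (2 * ∫ x, u x * φ x)) ∧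
      (∀ u : R3 → ℝ, MemLp u 2 (volume : Measure R3) →
        HasSum (fun j => (∫ x, u x * h j x) * (∫ x, w x * h j x))
          ((∫ x, u x * a x) + 2 * (∫ x, φ x * w x) * ∫ x, u x * φ x)) ∧
      (∀ᵐ x, a x ^ 2 ≤ 2 * (∫ y, w y ^ 2) * ρ x) ∧
      (∀ᵐ x, 2 * φ x ^ 2 ≤ ρ x) ∧
      2 * (∫ x, ∑ k, gφ k x ^ 2) ≤ ∑' j, ∫ x, ∑ k, g j k x ^ 2 := sorry

end

end Vale.Agent.P363.H574
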