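import Vale.Agent.P363.H574.Comb

/-! Structure theorem (B6.5), except the subsolution property of `√ρ`. -/

namespace Vale.Agent.P363.H574

open MeasureTheory Filter Topology
open Vale.Agent.P363.Stmt
open Vale.Agent.P363.R.Sob
open Vale.Agent.P363.R.KS (H1 qf KSData)
open scoped ContDiff ENNReal

noncomputable section

section fam

variable {v ρ : R3 → ℝ} {E : ℝ} {ι : Type} {h : ι → R3 → ℝ} {g : ι → Fin 3 → R3 → ℝ}

theorem trial_V (N : NatFam v ρ E h g) (f1 f2 f3 : V1) (h1 : ‖J1 f1‖ = 1) (h2 : ‖J1 f2‖ = 1)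
    (h3 : ‖J1 f3‖ = 1) (h12 : inner ℝ (J1 f1) (J1 f2) = (0 : ℝ))
    (h13 : inner ℝ (J1 f1) (J1 f3) = (0 : ℝ)) (h23 : inner ℝ (J1 f2) (J1 f3) = (0 : ℝ)) :
    E ≤ 2 * (QV N.memV).B f1 f1 + 2 * (QV N.memV).B f2 f2 + (QV N.memV).B f3 f3 := by
  have hh : ∀ i j : Fin 3, ∫ x, (J1 (![f1, f2, f3] i) x) * (J1 (![f1, f2, f3] j) x) =
      if i = j then 1 else 0 := by
    intro i j
    rw [← inner_eq]
    fin_cases i <;> fin_cases j <;>
      simp [h1, h2, h3, h12, h13, h23, real_inner_comm (J1 f1) (J1 f2), real_inner_comm (J1 f1) (J1 f3), real_inner_comm (J1 f2) (J1 f3)]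
  have := N.trial (fun i => J1 (![f1, f2, f3] i)) (fun i k => D1 k (![f1, f2, f3] i))
    (fun i => H1_of _) hh
  simp only [QV_B]
  exact this

theorem structure_V (N : NatFam v ρ E h g)
    (hclose : ∀ u₁ u₂ : R3 → ℝ, MemLp u₁ 2 (volume : Measure R3) →
      MemLp u₂ 2 (volume : Measure R3) → ∫ x, u₁ x ^ 2 = 1 → ∫ x, u₂ x ^ 2 = 1 →
      ∫ x, u₁ x * u₂ x = 0 →
      ¬ (∑' j, (∫ x, u₁ x * h j x) ^ 2 = 2 ∧ ∑' j, (∫ x, u₂ x * h j x) ^ 2 = 2)) :
    ∃ (φ : V1) (e₁ e₂ : ℝ), e₁ < e₂ ∧ ‖J1 φ‖ = 1 ∧ (∀ᵐ x, 0 < J1 φ x) ∧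
      (∀ g, (QV N.memV).B φ g = e₁ * inner ℝ (J1 φ) (J1 g)) ∧
      (∀ f, inner ℝ (J1 φ) (J1 f) = (0 : ℝ) → 0 ≤ (QV N.memV).A e₂ f f) ∧
      HasSum (fun j => (inner ℝ (J1 φ) (J1 (hV N j)) : ℝ) ^ 2) 2 ∧
      (∀ j g, (QV N.memV).A e₂ (hV N j) g =
        (e₁ - e₂) * (inner ℝ (J1 φ) (J1 (hV N j)) : ℝ) * inner ℝ (J1 φ) (J1 g)) := by
  obtain ⟨φ, e₁, e₂, hlt, hφ1, hφ, hlow1, hlow2, hocc, heq, -⟩ :=
    (QV N.memV).structure_thm (hV N) (hasSum_norm_J N)
      (fun u hu => by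
        have := pauli_V N u
        rw [hu] at this
        exact ⟨this.1, this.2.trans (by norm_num)⟩)
      (E := E) (by
        have h1 : ∀ j, (QV N.memV).B (hV N j) (hV N j) = qf v 0 (h j) (g j) (h j) (g j) :=
          fun j => QV_B_toV N.memV (N.h1 j) (N.h1 j)
        simpa only [h1] using N.en)
      (trial_V N)
      (fun u1 u2 n1 n2 h12 => by
        have := hclose u1 u2 (Lp.memLp u1) (Lp.memLp u2) (by rw [← norm_sq_eq', n1, one_pow])
          (by rw [← norm_sq_eq', n2, one_pow]) (by rw [← inner_eq, h12])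
        show ¬ (∑' j, (inner ℝ u1 (J1 (hV N j)) : ℝ) ^ 2 = 2 ∧
          ∑' j, (inner ℝ u2 (J1 (hV N j)) : ℝ) ^ 2 = 2)
        simpa only [inner_hV] using this)
      (fun e f g hlow h1 hB h2 hB2 => simple_V1 N.memV e f g hlow h1 hB h2 hB2)
      exists_orth
  have hB : (QV N.memV).B φ φ = e₁ := by
    rw [hφ, QV_J, real_inner_self_eq_norm_sq]
    have : ‖J1 φ‖ = 1 := hφ1
    rw [this]; ring
  rcases sign_V1 N.memV e₁ hlow1 φ hφ1 hB with hs | hs
  · exact ⟨φ, e₁, e₂, hlt, hφ1, hs, hφ, hlow2, hocc, heq⟩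
  · refine ⟨-φ, e₁, e₂, hlt, ?_, ?_, ?_, ?_, ?_, ?_⟩
    · rw [map_neg, norm_neg]; exact hφ1
    · rw [map_neg]
      filter_upwards [hs, Lp.coeFn_neg (J1 φ)] with x hx hx2
      rw [hx2, Pi.neg_apply]
      linarith
    · intro g
      rw [map_neg, neg_apply, hφ, map_neg, inner_neg_left, QV_J]; ring
    · intro f hf
      refine hlow2 f ?_
      rw [map_neg, inner_neg_left, neg_eq_zero] at hf
      exact hf
    · simp only [map_neg, inner_neg_left, neg_sq]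
      exact hocc
    · intro j g
      rw [heq, map_neg, inner_neg_left, inner_neg_left, QV_J]; ring

variable {N : NatFam v ρ E h g} {φ : V1}

/-- `γφ = 2φ` -/
theorem gamma_phi (hφ1 : ‖J1 φ‖ = 1)
    (hocc : HasSum (fun j => (inner ℝ (J1 φ) (J1 (hV N j)) : ℝ) ^ 2) 2) (u : LR) :
    HasSum (fun j => (inner ℝ u (J1 (hV N j)) : ℝ) * inner ℝ (J1 φ) (J1 (hV N j)))
      (2 * inner ℝ u (J1 φ)) := by
  have hs := summable_mul_sq (pauli_V N u).1 hocc.summable
  have key : ∑' j, (inner ℝ u (J1 (hV N j)) : ℝ) * inner ℝ (J1 φ) (J1 (hV N j)) =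
      2 * inner ℝ u (J1 φ) := by
    set G : ℝ := ∑' j, (inner ℝ u (J1 (hV N j)) : ℝ) * inner ℝ (J1 φ) (J1 (hV N j)) with hG
    set P : ℝ := 2 * ‖u‖ ^ 2 - ∑' j, (inner ℝ u (J1 (hV N j)) : ℝ) ^ 2 with hP
    have hP0 : 0 ≤ P := by rw [hP]; linarith [(pauli_V N u).2]
    have hquad : ∀ t : ℝ, 0 ≤ 2 * t * (2 * inner ℝ u (J1 φ) - G) + t ^ 2 * P := by
      intro t
      have h1 := (pauli_V N (J1 φ + t • u)).2
      have h2 : HasSum (fun j => (inner ℝ (J1 φ + t • u) (J1 (hV N j)) : ℝ) ^ 2)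
          (2 + 2 * t * G + t ^ 2 * ∑' j, (inner ℝ u (J1 (hV N j)) : ℝ) ^ 2) := by
        have h3 := (hocc.add (hs.hasSum.mul_left (2 * t))).add
          ((pauli_V N u).1.hasSum.mul_left (t ^ 2))
        refine h3.congr_fun ?_ |> fun x => x
        intro j
        rw [inner_add_left, inner_smul_left]
        simp only [RCLike.conj_to_real]
        ring
      rw [h2.tsum_eq, @norm_add_sq_real, norm_smul, inner_smul_right, hφ1, Real.norm_eq_abs,
        mul_pow, sq_abs, real_inner_comm u (J1 φ)] at h1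
      rw [hP]
      nlinarith
    by_contra hne
    set b : ℝ := 2 * inner ℝ u (J1 φ) - G with hb
    have hb0 : b ≠ 0 := by
      intro h0
      apply hne
      rw [hb] at h0
      linarith
    have h1 := hquad (-b / (P + 1))
    have hPp : 0 < P + 1 := by linarith
    have h2 : 2 * (-b / (P + 1)) * b + (-b / (P + 1)) ^ 2 * P = -(b ^ 2 * (P + 2)) / (P + 1) ^ 2 := by
      field_simp; ring
    rw [h2] at h1
    have h3 : 0 < b ^ 2 * (P + 2) := by positivity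
    have h4 : -(b ^ 2 * (P + 2)) / (P + 1) ^ 2 < 0 :=
      div_neg_of_neg_of_pos (by linarith) (by positivity)
    linarith
  rw [← key]
  exact hs.hasSum

theorem comb_phi (hφ1 : ‖J1 φ‖ = 1)
    (hocc : HasSum (fun j => (inner ℝ (J1 φ) (J1 (hV N j)) : ℝ) ^ 2) 2) :
    comb N (fun j => inner ℝ (J1 φ) (J1 (hV N j))) = (2 : ℝ) • φ := by
  apply J1_inj
  refine ext_inner_left ℝ fun u => ?_
  have h1 := hasSum_inner_comb N hocc.summable u
  have h2 := gamma_phi hφ1 hocc u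
  have h3 : HasSum (fun j => (inner ℝ (J1 φ) (J1 (hV N j)) : ℝ) * inner ℝ u (J1 (hV N j)))
      (2 * inner ℝ u (J1 φ)) := by
    refine h2.congr_fun ?_ |> fun x => x
    intro j; ring
  rw [h1.unique h3, map_smul, inner_smul_right]

theorem A_comb (e : ℝ) {c : ι → ℝ} (hc : Summable fun j => c j ^ 2) (f : V1) :
    HasSum (fun j => c j * (QV N.memV).A e (hV N j) f) ((QV N.memV).A e (comb N c) f) := by
  have h1 := (hasSum_comb N hc).mapL ((QV N.memV).B.flip f)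
  have h2 := (hasSum_inner_comb N hc (J1 f)).mul_left e
  have h3 := h1.sub h2
  have e1 : (QV N.memV).A e (comb N c) f =
      (QV N.memV).B.flip f (comb N c) - e * inner ℝ (J1 f) (J1 (comb N c)) := by
    unfold QForm.A
    rw [ContinuousLinearMap.flip_apply, QV_J, real_inner_comm]
  rw [e1]
  refine h3.congr_fun ?_ |> fun x => x
  intro j
  unfold QForm.A
  rw [map_smul, ContinuousLinearMap.flip_apply, QV_J, real_inner_comm, smul_eq_mul]
  ring

/-- **B6.5 without the subsolution property.** -/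
theorem structure_pre [Countable ι] (N : NatFam v ρ E h g)
    (hclose : ∀ u₁ u₂ : R3 → ℝ, MemLp u₁ 2 (volume : Measure R3) →
      MemLp u₂ 2 (volume : Measure R3) → ∫ x, u₁ x ^ 2 = 1 → ∫ x, u₂ x ^ 2 = 1 →
      ∫ x, u₁ x * u₂ x = 0 →
      ¬ (∑' j, (∫ x, u₁ x * h j x) ^ 2 = 2 ∧ ∑' j, (∫ x, u₂ x * h j x) ^ 2 = 2))
    (w : R3 → ℝ) (hw : MemLp w 2 (volume : Measure R3)) :
    ∃ (μ δ : ℝ) (φ a : V1), 0 < δ ∧ ‖J1 φ‖ = 1 ∧ (∀ᵐ x, 0 < J1 φ x) ∧
      (∀ f k, H1 f k → qf v μ (J1 φ) (fun k => D1 k φ) f k = -δ * ∫ x, J1 φ x * f x) ∧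
      (∀ f k, H1 f k → qf v μ (J1 a) (fun k => D1 k a) f k = 0) ∧
      (∀ f k, H1 f k → ∫ x, J1 φ x * f x = 0 → 0 ≤ qf v μ f k f k) ∧
      (∃ c : ι → ℝ, HasSum (fun j => c j ^ 2) 2 ∧
        (∀ᵐ x, HasSum (fun j => c j * h j x) (2 * J1 φ x)) ∧
        ∀ j f k, H1 f k → qf v μ (h j) (g j) f k = -δ * c j * ∫ x, J1 φ x * f x) ∧
      (∀ u : R3 → ℝ, MemLp u 2 (volume : Measure R3) →
        HasSum (fun j => (∫ x, u x * h j x) * (∫ x, J1 φ x * h j x)) (2 * ∫ x, u x * J1 φ x)) ∧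
      (∀ u : R3 → ℝ, MemLp u 2 (volume : Measure R3) →
        HasSum (fun j => (∫ x, u x * h j x) * (∫ x, w x * h j x))
          ((∫ x, u x * J1 a x) + 2 * (∫ x, J1 φ x * w x) * ∫ x, u x * J1 φ x)) ∧
      (∀ᵐ x, J1 a x ^ 2 ≤ 2 * (∫ y, w y ^ 2) * ρ x) ∧
      (∀ᵐ x, 2 * J1 φ x ^ 2 ≤ ρ x) ∧
      2 * (∫ x, ∑ k, D1 k φ x ^ 2) ≤ ∑' j, ∫ x, ∑ k, g j k x ^ 2 := by
  obtain ⟨φ, e₁, e₂, hlt, hφ1, hpos, hφ, hlow, hocc, heq⟩ := structure_V N hclose
  have hv := N.memV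
  -- translation of inner products
  have hin : ∀ (u : R3 → ℝ) (hu : MemLp u 2 (volume : Measure R3)) (j : ι),
      (inner ℝ (hu.toLp u) (J1 (hV N j)) : ℝ) = ∫ x, u x * h j x := by
    intro u hu j
    rw [inner_hV]
    refine integral_congr_ae ?_
    filter_upwards [hu.coeFn_toLp] with x hx
    rw [hx]
  have hin2 : ∀ (u : R3 → ℝ) (hu : MemLp u 2 (volume : Measure R3)) (z : LR),
      (inner ℝ (hu.toLp u) z : ℝ) = ∫ x, u x * z x := by
    intro u hu z
    rw [inner_eq]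
    refine integral_congr_ae ?_
    filter_upwards [hu.coeFn_toLp] with x hx
    rw [hx]
  set α : ι → ℝ := fun j => inner ℝ (J1 φ) (J1 (hV N j)) with hα
  have hα2 : HasSum (fun j => α j ^ 2) 2 := hocc
  -- coefficients of `a`
  set W : LR := hw.toLp w with hW
  set t : ℝ := inner ℝ (J1 φ) W with ht
  set Wp : LR := W - t • J1 φ with hWp
  set c : ι → ℝ := fun j => inner ℝ Wp (J1 (hV N j)) with hc
  have hc2 : Summable fun j => c j ^ 2 := (pauli_V N Wp).1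
  have hWp_orth : (inner ℝ Wp (J1 φ) : ℝ) = 0 := by
    rw [hWp, inner_sub_left, inner_smul_left, real_inner_self_eq_norm_sq, hφ1, ht,
      real_inner_comm]
    simp
  have hWp_norm : ‖Wp‖ ^ 2 ≤ ∫ y, w y ^ 2 := by
    have h1 : ‖W‖ ^ 2 = ∫ y, w y ^ 2 := norm_toLp_sq' hw
    have h2 : ‖Wp‖ ^ 2 = ‖W‖ ^ 2 - t ^ 2 := by
      have e : (inner ℝ W (J1 φ) : ℝ) = t := by rw [ht, real_inner_comm]
      rw [hWp, @norm_sub_sq_real, norm_smul, inner_smul_right, hφ1, e,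
        mul_one, Real.norm_eq_abs, sq_abs]
      ring
    rw [← h1, h2]
    nlinarith [sq_nonneg t]
  have hcα : HasSum (fun j => c j * α j) 0 := by
    have := gamma_phi hφ1 hocc Wp
    rw [hWp_orth, mul_zero] at this
    exact this
  refine ⟨e₂, e₂ - e₁, φ, comb N c, by linarith, hφ1, hpos, ?_, ?_, ?_, ?_, ?_, ?_, ?_, ?_, ?_⟩
  · intro f k hf
    have h1 : (QV hv).A e₂ φ (toV hf) = qf v e₂ (J1 φ) (fun k => D1 k φ) f k := by
      rw [QV_A]
      exact qf_congr (EventuallyEq.refl _ _) (fun _ => EventuallyEq.refl _ _) (J1_toV_ae hf)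
        (fun i => D1_toV_ae hf i)
    rw [← h1, (QV hv).A_eigen hφ, QV_J, J1_toV, real_inner_comm, hin2]
    have : ∫ x, f x * J1 φ x = ∫ x, J1 φ x * f x := by
      congr 1; funext x; ring
    rw [this]; ring
  · intro f k hf
    have h1 : (QV hv).A e₂ (comb N c) (toV hf) =
        qf v e₂ (J1 (comb N c)) (fun k => D1 k (comb N c)) f k := by
      rw [QV_A]
      exact qf_congr (EventuallyEq.refl _ _) (fun _ => EventuallyEq.refl _ _) (J1_toV_ae hf)
        (fun i => D1_toV_ae hf i)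
    rw [← h1]
    have h2 := A_comb (N := N) e₂ hc2 (toV hf)
    have h3 : HasSum (fun j => c j * (QV N.memV).A e₂ (hV N j) (toV hf))
        ((e₁ - e₂) * inner ℝ (J1 φ) (J1 (toV hf)) * 0) := by
      refine (hcα.mul_left ((e₁ - e₂) * inner ℝ (J1 φ) (J1 (toV hf)))).congr_fun ?_ |> fun x => x
      intro j
      rw [heq]
      ring
    rw [mul_zero] at h3
    exact h2.unique h3
  · intro f k hf h0
    rw [← QV_A_toV hv e₂ hf hf]
    refine hlow _ ?_
    rw [J1_toV, real_inner_comm, hin2]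
    rw [← h0]
    congr 1; funext x; ring
  · refine ⟨α, hα2, ?_, ?_⟩
    · have h1 := comb_ae_hasSum N hα2.summable
      rw [comb_phi hφ1 hocc, map_smul] at h1
      filter_upwards [h1, Lp.coeFn_smul (2 : ℝ) (J1 φ)] with x a b
      rw [b] at a
      exact a
    · intro j f k hf
      have h1 : (QV hv).A e₂ (hV N j) (toV hf) = qf v e₂ (h j) (g j) f k :=
        QV_A_toV hv e₂ (N.h1 j) hf
      rw [← h1, heq, J1_toV, real_inner_comm (hf.mem.toLp f) (J1 φ), hin2]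
      have : ∫ x, f x * J1 φ x = ∫ x, J1 φ x * f x := by
        congr 1; funext x; ring
      rw [this]; ring
  · intro u hu
    have := gamma_phi hφ1 hocc (hu.toLp u)
    simp only [hin, hin2] at this
    simpa only [inner_hV] using this
  · intro u hu
    have h1 := hasSum_inner_comb N hc2 (hu.toLp u)
    have h2 := (gamma_phi hφ1 hocc (hu.toLp u)).mul_left t
    have h3 := h1.add h2
    have h4 : (∫ x, J1 φ x * w x) = t := by
      rw [ht, hW, real_inner_comm, hin2]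
      congr 1; funext x; ring
    rw [h4]
    have h5 : (inner ℝ (hu.toLp u) (J1 (comb N c)) : ℝ) + t * (2 * inner ℝ (hu.toLp u) (J1 φ)) =
        (∫ x, u x * J1 (comb N c) x) + 2 * t * ∫ x, u x * J1 φ x := by
      rw [hin2, hin2]; ring
    rw [← h5]
    refine h3.congr_fun ?_ |> fun x => x
    intro j
    have h6 : c j = (∫ x, w x * h j x) - t * α j := by
      show (inner ℝ Wp (J1 (hV N j)) : ℝ) = _
      rw [hWp, inner_sub_left, inner_smul_left, hW, hin]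
      simp [hα]
    rw [hin]
    show (∫ x, u x * h j x) * (∫ x, w x * h j x) = c j * (∫ x, u x * h j x) +
      t * ((∫ x, u x * h j x) * α j)
    rw [h6]; ring
  · filter_upwards [comb_sq_le N hc2, N.dens] with x hx hd
    refine hx.trans ?_
    have h0 : 0 ≤ ρ x := hd.nonneg fun j => sq_nonneg _
    refine mul_le_mul_of_nonneg_right ?_ h0
    exact (pauli_V N Wp).2.trans (by linarith)
  · have h1 := comb_sq_le N hα2.summable
    rw [comb_phi hφ1 hocc, map_smul, hα2.tsum_eq] at h1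
    filter_upwards [h1, Lp.coeFn_smul (2 : ℝ) (J1 φ)] with x a b
    rw [b, Pi.smul_apply, smul_eq_mul] at a
    nlinarith
  · have h1 : ∀ k, 2 * ‖D1 k φ‖ ^ 2 ≤ ∑' j, ‖D1 k (hV N j)‖ ^ 2 := by
      intro k
      have := comb_D_le N hα2.summable k
      rw [comb_phi hφ1 hocc, map_smul, hα2.tsum_eq, norm_smul, mul_pow] at this
      norm_num at this
      linarith
    have h2 : ∫ x, ∑ k, D1 k φ x ^ 2 = ∑ k, ‖D1 k φ‖ ^ 2 := by
      rw [integral_finsetSum _ fun k _ =>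
        (memLp_two_iff_integrable_sq (Lp.memLp (D1 k φ)).1).1 (Lp.memLp (D1 k φ))]
      exact Finset.sum_congr rfl fun k _ => (norm_sq_eq' _).symm
    have h3 : ∑' j, ∫ x, ∑ k, g j k x ^ 2 = ∑ k, ∑' j, ‖D1 k (hV N j)‖ ^ 2 := by
      simp only [← sum_D_hV N]
      exact Summable.tsum_finsetSum fun k _ => summable_D_hV N k
    rw [h2, h3, Finset.mul_sum]
    exact Finset.sum_le_sum fun k _ => h1 k

end fam

end

end Vale.Agent.P363.H574
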