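import Vale.Agent.P363.H574.Slater
import Vale.Agent.P363.H574.Dim

/-! Trial Slater determinants with occupations (2,2,1). -/

namespace Vale.Agent.P363.H574

open MeasureTheory Filter Topology
open Vale.Agent.P363.Stmt
open Vale.Agent.P363.R.Sob
open Vale.Agent.P363.R.KS (H1 qf KSData)
open scoped ContDiff ENNReal ComplexConjugate

noncomputable section

/-- orbital label -/
def oL : Fin 5 → Fin 3 := ![0, 0, 1, 1, 2]

/-- spin label -/
def sL : Fin 5 → Fin 2 := ![0, 1, 0, 1, 0]

theorem isWD_ofReal {k : R3} {f g : R3 → ℝ} (h : IsWD (volume : Measure R3) k f g) :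
    IsWD (volume : Measure R3) k (fun x => (f x : ℂ)) (fun x => (g x : ℂ)) := by
  intro φ hφ
  have h1 := h φ hφ
  have e1 : ∫ x, (fderiv ℝ φ x k) • (f x : ℂ) = ((∫ x, (fderiv ℝ φ x k) • f x : ℝ) : ℂ) := by
    rw [← integral_complex_ofReal]
    refine integral_congr_ae (ae_of_all _ fun x => ?_)
    simp
  have e2 : ∫ x, φ x • (g x : ℂ) = ((∫ x, φ x • g x : ℝ) : ℂ) := by
    rw [← integral_complex_ofReal]
    refine integral_congr_ae (ae_of_all _ fun x => ?_)
    simp
  rw [e1, e2, h1]
  simp

theorem memLp_ofReal {f : R3 → ℝ} (h : MemLp f 2 (volume : Measure R3)) :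
    MemLp (fun x => (f x : ℂ)) 2 (volume : Measure R3) :=
  h.of_le (Complex.continuous_ofReal.comp_aestronglyMeasurable h.1) (ae_of_all _ fun x => by simp)

section

variable {f : Fin 3 → R3 → ℝ} {gf : Fin 3 → Fin 3 → R3 → ℝ}

/-- the five spin orbitals -/
def so5 (hf : ∀ i, H1 (f i) (gf i))
    (ho : ∀ i j, ∫ x, f i x * f j x = if i = j then 1 else 0) : SO 5 where
  f a t r := if t = sL a then (f (oL a) r : ℂ) else 0
  g a t k r := if t = sL a then (gf (oL a) k r : ℂ) else 0
  fm a t := by
    by_cases h : t = sL a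
    · simpa [h] using memLp_ofReal (hf (oL a)).mem
    · simp [h]
  gm a t k := by
    by_cases h : t = sL a
    · simpa [h] using memLp_ofReal ((hf (oL a)).gmem k)
    · simp [h]
  wd a t k := by
    by_cases h : t = sL a
    · simp only [h, if_true]
      exact isWD_ofReal ((hf (oL a)).wd k)
    · simp only [h, if_false]
      exact isWD_zero
  orth a b := by
    have h1 : ∀ t : Fin 2, ∫ r, conj (if t = sL a then (f (oL a) r : ℂ) else 0) *
        (if t = sL b then (f (oL b) r : ℂ) else 0) =
        if t = sL a ∧ t = sL b then (if oL a = oL b then 1 else 0) else 0 := by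
      intro t
      by_cases ha : t = sL a
      · by_cases hb : t = sL b
        · have e : ∫ r, conj (f (oL a) r : ℂ) * (f (oL b) r : ℂ) =
              ((∫ r, f (oL a) r * f (oL b) r : ℝ) : ℂ) := by
            rw [← integral_complex_ofReal]
            refine integral_congr_ae (ae_of_all _ fun x => ?_)
            simp
          rw [if_pos (And.intro ha hb)]
          simp only [if_pos ha, if_pos hb]
          rw [e, ho]
          split_ifs <;> simp
        · simp [hb]
      · simp [ha]
    simp only [h1]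
    fin_cases a <;> fin_cases b <;> simp [sL, oL]

theorem norm_ite_sq (p : Prop) [Decidable p] (x : ℝ) :
    ‖(if p then (x : ℂ) else 0)‖ ^ 2 = if p then x ^ 2 else 0 := by
  by_cases h : p
  · simp [h, sq_abs]
  · simp [h]

theorem energy_so5 {v : R3 → ℝ} (hv : MemV v) (hf : ∀ i, H1 (f i) (gf i))
    (ho : ∀ i j, ∫ x, f i x * f j x = if i = j then 1 else 0) :
    energy (sumPotential v) (slater (so5 hf ho)) =
      2 * qf v 0 (f 0) (gf 0) (f 0) (gf 0) + 2 * qf v 0 (f 1) (gf 1) (f 1) (gf 1) +
      qf v 0 (f 2) (gf 2) (f 2) (gf 2) := by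
  have hint : ∀ a b t, Integrable (fun r => (v r : ℂ) *
      (conj ((so5 hf ho).f a t r) * (so5 hf ho).f b t r)) := by
    intro a b t
    have h1 : Integrable (fun r => v r * f (oL a) r * f (oL b) r) :=
      H700.H1.integrable_mul (hf _) (hf _) hv
    by_cases ha : t = sL a
    · by_cases hb : t = sL b
      · refine h1.ofReal.congr (ae_of_all _ fun r => ?_)
        show ((v r * f (oL a) r * f (oL b) r : ℝ) : ℂ) = (v r : ℂ) *
          (conj (if t = sL a then (f (oL a) r : ℂ) else 0) * (if t = sL b then (f (oL b) r : ℂ) else 0))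
        rw [if_pos ha, if_pos hb]
        push_cast
        simp
        ring
      · have : (fun r => (v r : ℂ) * (conj ((so5 hf ho).f a t r) * (so5 hf ho).f b t r)) =
            fun _ => 0 := by
          funext r
          simp [so5, hb]
        rw [this]
        exact integrable_zero _ _ _
    · have : (fun r => (v r : ℂ) * (conj ((so5 hf ho).f a t r) * (so5 hf ho).f b t r)) =
            fun _ => 0 := by
          funext r
          simp [so5, ha]
      rw [this]
      exact integrable_zero _ _ _
  rw [slater_energy (so5 hf ho) v hint]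
  have e1 : ∀ (l : Fin 5), ∑ t, ∑ k, ∫ r, ‖(so5 hf ho).g l t k r‖ ^ 2 =
      ∫ r, ∑ k, gf (oL l) k r * gf (oL l) k r := by
    intro l
    have h1 : ∀ (t : Fin 2) (k : Fin 3), ∫ r, ‖(so5 hf ho).g l t k r‖ ^ 2 =
        if t = sL l then ∫ r, gf (oL l) k r ^ 2 else 0 := by
      intro t k
      have : ∀ r, ‖(so5 hf ho).g l t k r‖ ^ 2 = if t = sL l then gf (oL l) k r ^ 2 else 0 :=
        fun r => norm_ite_sq _ _
      simp only [this]
      by_cases h : t = sL l
      · simp [h]
      · simp [h]
    simp only [h1]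
    rw [Finset.sum_eq_single (sL l)]
    · simp only [if_true]
      have hi : ∀ k : Fin 3, Integrable (fun r => gf (oL l) k r * gf (oL l) k r)
        (volume : Measure R3) := fun k => ((hf (oL l)).gmem k).integrable_mul ((hf (oL l)).gmem k)
      rw [integral_finsetSum _ fun k _ => hi k]
      refine Finset.sum_congr rfl fun k _ => ?_
      refine integral_congr_ae (ae_of_all _ fun r => ?_)
      simp only; ring
    · intro t _ ht
      simp [ht]
    · simp
  have e2 : ∀ (l : Fin 5), ∑ t, ∫ r, v r * ‖(so5 hf ho).f l t r‖ ^ 2 =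
      ∫ r, (v r - 0) * f (oL l) r * f (oL l) r := by
    intro l
    have h1 : ∀ (t : Fin 2), ∫ r, v r * ‖(so5 hf ho).f l t r‖ ^ 2 =
        if t = sL l then ∫ r, (v r - 0) * f (oL l) r * f (oL l) r else 0 := by
      intro t
      have : ∀ r, ‖(so5 hf ho).f l t r‖ ^ 2 = if t = sL l then f (oL l) r ^ 2 else 0 :=
        fun r => norm_ite_sq _ _
      simp only [this]
      by_cases h : t = sL l
      · simp only [h, if_true]
        refine integral_congr_ae (ae_of_all _ fun r => ?_)
        simp only; ring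
      · simp [h]
    simp only [h1]
    rw [Finset.sum_ite_eq' Finset.univ (sL l)]
    simp
  simp only [e1, e2]
  unfold qf
  rw [Fin.sum_univ_five, Fin.sum_univ_five]
  have o0 : oL 0 = 0 := rfl
  have o1 : oL 1 = 0 := rfl
  have o2 : oL 2 = 1 := rfl
  have o3 : oL 3 = 1 := rfl
  have o4 : oL 4 = 2 := rfl
  rw [o0, o1, o2, o3, o4]
  ring

/-- B6, the field `trial`. -/
theorem trial_le {v : R3 → ℝ} (hv : MemV v) (hf : ∀ i, H1 (f i) (gf i))
    (ho : ∀ i j, ∫ x, f i x * f j x = if i = j then 1 else 0) {Φ : ElectronState 5}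
    (hΦ : IsGroundState (sumPotential v) Φ) :
    energy (sumPotential v) Φ ≤ 2 * qf v 0 (f 0) (gf 0) (f 0) (gf 0) +
      2 * qf v 0 (f 1) (gf 1) (f 1) (gf 1) + qf v 0 (f 2) (gf 2) (f 2) (gf 2) := by
  rw [← energy_so5 hv hf ho]
  exact hΦ.2 _ (slater_normSq _)

end

end

end Vale.Agent.P363.H574
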